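import Vale.Agent.P202.NC.Window.Level
import Vale.Agent.P202.Window.Chi

/-!
# P202, general source ring: homology of the levels, and the Euler characteristic of the window
-/

noncomputable section

namespace Vale.Agent.P202.NC.Grading

open Segre Window

variable {k : Type*} [Field k] {n : ℕ} [IsScalarTower k (Pw k n) (Lam k n)]
variable {G : FreeCx (Pw k n)} {σ : Grading G} {K₀ : ℕ}
variable {C : Cov n → Submodule (Pw k n) (Lam k n)}

variable (σ) in
/-- The rows meeting level `L`. -/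
abbrev RowL (L : ℤ) : Type := {g : G.ι // G.pos g = σ.posOf L}

theorem slot_mem_cycles (hC : CompHyp K₀ C) (hup : σ.MatUp) {L j : ℤ} {x : Tot G}
    (hx : x ∈ (totDiff G).cycles (σ.filt C L) (σ.filt C (L + 1)) j) (g : σ.RowL L) :
    slot G x g.1 (σ.degOf g.1 L) ∈
      (sliceDiff k n).cycles (slice k n K₀ (σ.degOf g.1 L)) ⊥ (j - G.pos g.1) := by
  obtain ⟨⟨h1, h2⟩, h3⟩ := hx
  refine ⟨⟨slot_mem_slice hC h1.1 g.1 _, slot_mem_deg h2 g.1 _⟩, ?_⟩
  rw [SetLike.mem_coe, Submodule.mem_comap, Submodule.mem_bot]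
  exact slot_cycle hup h1 h3 (σ.level_degOf g.2)

variable (σ) in
/-- The symbol of a relative cycle at level `L`. -/
def symb (hC : CompHyp K₀ C) (hup : σ.MatUp) (L j : ℤ) :
    (totDiff G).cycles (σ.filt C L) (σ.filt C (L + 1)) j →ₗ[k]
      ((g : σ.RowL L) → SliceH k n K₀ (σ.degOf g.1 L) (j - G.pos g.1)) :=
  LinearMap.pi fun g =>
    (Submodule.mkQ _).comp
      (((slotHom G g.1 (σ.degOf g.1 L)).comp (Submodule.subtype _)).codRestrict _
        fun x => slot_mem_cycles hC hup x.2 g)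

theorem symb_apply (hC : CompHyp K₀ C) (hup : σ.MatUp) {L j : ℤ}
    (x : (totDiff G).cycles (σ.filt C L) (σ.filt C (L + 1)) j) (g : σ.RowL L) :
    σ.symb hC hup L j x g =
      Submodule.Quotient.mk ⟨slot G x.1 g.1 (σ.degOf g.1 L), slot_mem_cycles hC hup x.2 g⟩ :=
  rfl

theorem symb_ker (hC : CompHyp K₀ C) (hup : σ.MatUp) (L j : ℤ) :
    LinearMap.ker (σ.symb hC hup L j) =
      ((totDiff G).bdries (σ.filt C L) (σ.filt C (L + 1)) j).comap (Submodule.subtype _) := by
  classical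
  ext ⟨x, hx⟩
  obtain ⟨⟨h1, h2⟩, h3⟩ := hx
  rw [LinearMap.mem_ker, Submodule.mem_comap, Submodule.subtype_apply, funext_iff]
  simp only [symb_apply, Pi.zero_apply, Submodule.Quotient.mk_eq_zero, Submodule.mem_comap,
    Submodule.subtype_apply]
  constructor
  · intro h
    have key : ∀ g, ∃ y : Cov n → Coef k n, G.pos g = σ.posOf L →
        y ∈ slice k n K₀ (σ.degOf g L) ∧ y ∈ (sliceDiff k n).deg (j + 1 - σ.posOf L) ∧
        rsgn G g • delta k (Coef k n) y = slot G x g (σ.degOf g L) := by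
      intro g
      by_cases hg : G.pos g = σ.posOf L
      · have := h ⟨g, hg⟩
        rw [Diff.bdries, Submodule.mem_sup] at this
        obtain ⟨a, ⟨y, ⟨y1, y2⟩, rfl⟩, b, ⟨hb, -⟩, hab⟩ := this
        rw [SetLike.mem_coe, Submodule.mem_bot] at hb
        rw [hb, add_zero] at hab
        refine ⟨rsgn G g • y, fun _ => ⟨zsmul_mem y1 _, zsmul_mem ?_ _, ?_⟩⟩
        · rwa [← hg, show j + 1 - (G.pos g : ℤ) = j - (G.pos g : ℤ) + 1 by ring]
        · rw [map_zsmul, smul_smul, rsgn, ← pow_add, ← two_mul, pow_mul, neg_one_sq, one_pow,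
            one_smul]
          exact hab
      · exact ⟨0, fun h => absurd h hg⟩
    choose c hc using key
    have m1 := ofSlots_mem_filt (σ := σ) hC (L := L) (c := c) fun g hg => (hc g hg).1
    have m2 : σ.ofSlots L c ∈ (totDiff G).deg (j + 1) :=
      ofSlots_mem_deg fun g hg => (hc g hg).2.1
    rw [Diff.bdries, Submodule.mem_sup]
    refine ⟨_, ⟨_, ⟨m1, m2⟩, rfl⟩, x - dTot G (σ.ofSlots L c), ⟨?_, ?_⟩, ?_⟩
    · refine mem_filt_succ ((σ.filt C L).sub_mem h1 (filt_stable hC hup L _ m1)) ?_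
      intro g hg
      have hl := σ.level_degOf hg
      funext e
      change (x (g, e) - dTot G (σ.ofSlots L c) (g, e)).coeff (σ.degOf g L) = 0
      rw [HahnSeries.coeff_sub, dTot_coeff hup m1.2 g e hl.le, slot_ofSlots L c hl]
      have := congrFun (hc g hg).2.2 e
      simp only [Pi.smul_apply, slot] at this
      rw [this, sub_self]
    · refine Submodule.sub_mem _ h2 ?_
      simpa [totDiff_d] using (totDiff G).d_deg _ _ m2
    · rw [totDiff_d]
      abel
  · intro h g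
    rw [Diff.bdries, Submodule.mem_sup] at h
    obtain ⟨a, ⟨y, ⟨y1, y2⟩, rfl⟩, b, ⟨hb, -⟩, hab⟩ := h
    rw [Diff.bdries]
    refine Submodule.mem_sup_left ⟨rsgn G g.1 • slot G y g.1 (σ.degOf g.1 L), ⟨?_, ?_⟩, ?_⟩
    · exact zsmul_mem (slot_mem_slice hC y1.1 g.1 _) _
    · refine zsmul_mem ?_ _
      have := slot_mem_deg y2 g.1 (σ.degOf g.1 L)
      rwa [show j - (G.pos g.1 : ℤ) + 1 = j + 1 - (G.pos g.1 : ℤ) by ring]
    · rw [map_zsmul]
      funext e
      have hl := σ.level_degOf g.2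
      change rsgn G g.1 • delta k (Coef k n) (slot G y g.1 (σ.degOf g.1 L)) e =
        (x (g.1, e)).coeff (σ.degOf g.1 L)
      rw [← dTot_coeff hup y1.2 g.1 e hl.le, ← hab, Pi.add_apply, HahnSeries.coeff_add, totDiff_d]
      have := congrFun (slot_eq_zero_of_mem hb hl) e
      simp only [slot, Pi.zero_apply] at this
      rw [this, add_zero]

theorem symb_surjective (hC : CompHyp K₀ C) (hup : σ.MatUp) (L j : ℤ) :
    Function.Surjective (σ.symb hC hup L j) := by
  classical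
  intro v
  choose z hz using fun g => Submodule.Quotient.mk_surjective _ (v g)
  let c : G.ι → Cov n → Coef k n := fun g =>
    if h : G.pos g = σ.posOf L then (z ⟨g, h⟩).1 else 0
  have hc : ∀ g (h : G.pos g = σ.posOf L), c g = (z ⟨g, h⟩).1 := fun g h => dif_pos h
  set w := σ.ofSlots L c with hw
  have m1 : w ∈ σ.filt C L :=
    ofSlots_mem_filt hC fun g hg => by rw [hc g hg]; exact (z ⟨g, hg⟩).2.1.1
  have m2 : w ∈ (totDiff G).deg j :=
    ofSlots_mem_deg fun g hg => by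
      have h := (z ⟨g, hg⟩).2.1.2
      rw [hc g hg]
      have e : j - (σ.posOf L : ℤ) = j - (G.pos g : ℤ) := by rw [hg]
      rw [e]
      exact h
  have m3 : dTot G w ∈ σ.filt C (L + 1) := by
    refine mem_filt_succ (filt_stable hC hup L _ m1) fun g hg => ?_
    funext e
    have hl := σ.level_degOf hg
    change (dTot G w (g, e)).coeff _ = 0
    rw [dTot_coeff hup m1.2 g e hl.le, hw, slot_ofSlots L c hl, hc g hg]
    have h0 := (z ⟨g, hg⟩).2.2
    rw [SetLike.mem_coe, Submodule.mem_comap, Submodule.mem_bot] at h0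
    change rsgn G g • (sliceDiff k n).d (z ⟨g, hg⟩).1 e = 0
    rw [h0, Pi.zero_apply, smul_zero]
  refine ⟨⟨w, ⟨m1, m2⟩, m3⟩, funext fun g => ?_⟩
  rw [symb_apply, ← hz g]
  congr 1
  refine Subtype.ext ?_
  change slot G w g.1 (σ.degOf g.1 L) = (z g).1
  rw [hw, slot_ofSlots L c (σ.level_degOf g.2), hc g.1 g.2]

variable (σ) in
/-- Homology of one level. -/
def levelEquiv (hC : CompHyp K₀ C) (hup : σ.MatUp) (L j : ℤ) :
    (totDiff G).H (σ.filt C L) (σ.filt C (L + 1)) j ≃ₗ[k]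
      ((g : σ.RowL L) → SliceH k n K₀ (σ.degOf g.1 L) (j - G.pos g.1)) :=
  (Submodule.quotEquivOfEq _ _ (symb_ker hC hup L j).symm).trans
    ((σ.symb hC hup L j).quotKerEquivOfSurjective (symb_surjective hC hup L j))

theorem fin'_level (H : SliceHyp k n K₀) (hC : CompHyp K₀ C) (hup : σ.MatUp) (L : ℤ) :
    (totDiff G).Fin' (σ.filt C L) (σ.filt C (L + 1)) := by
  refine ⟨fun j => ?_, σ.M + n + 1, fun j hj => ?_⟩
  · have := fun g : σ.RowL L => H.finite (σ.degOf g.1 L) (j - G.pos g.1)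
    exact Module.Finite.equiv (σ.levelEquiv hC hup L j).symm
  · refine Diff.subsingleton_H _ fun x hx => ?_
    have : x = 0 := funext fun p => hx.1.2 p.1 p.2 (by
      have := σ.pos_lt p.1
      have := cdeg_le p.2
      push_cast at hj
      omega)
    rw [this]
    exact Submodule.zero_mem _

theorem level_betti (H : SliceHyp k n K₀) (hC : CompHyp K₀ C) (hup : σ.MatUp) (L j : ℤ) :
    (totDiff G).betti (σ.filt C L) (σ.filt C (L + 1)) j =
      ∑ g : σ.RowL L, (sliceDiff k n).betti (slice k n K₀ (σ.degOf g.1 L)) ⊥ (j - G.pos g.1) := by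
  have := fun g : σ.RowL L => H.finite (σ.degOf g.1 L) (j - G.pos g.1)
  rw [Diff.betti, (σ.levelEquiv hC hup L j).finrank_eq, Module.finrank_pi_fintype]
  rfl

theorem level_chi (H : SliceHyp k n K₀) (hC : CompHyp K₀ C) (hup : σ.MatUp) (L : ℤ) :
    (totDiff G).chi (σ.filt C L) (σ.filt C (L + 1)) =
      ∑ g : σ.RowL L, (-1) ^ G.pos g.1 *
        (sliceDiff k n).chi (slice k n K₀ (σ.degOf g.1 L)) ⊥ := by
  have hs : ∀ g : σ.RowL L, Function.HasFiniteSupport fun j : ℤ => (j.negOnePow : ℤ) *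
      ((sliceDiff k n).betti (slice k n K₀ (σ.degOf g.1 L)) ⊥ (j - G.pos g.1) : ℤ) := by
    intro g
    refine (Finset.Icc (-((n : ℤ) + 1) + G.pos g.1) (G.pos g.1)).finite_toSet.subset fun j hj => ?_
    by_contra hjS
    refine hj ?_
    simp only [Finset.coe_Icc, Set.mem_Icc, not_and_or, not_le] at hjS
    have hsub : Subsingleton (SliceH k n K₀ (σ.degOf g.1 L) (j - G.pos g.1)) := by
      refine Diff.subsingleton_H _ fun x hx => ?_
      have : x = 0 := funext fun e => hx.1.2 e (by have := cdeg_le e; omega)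
      rw [this]
      exact Submodule.zero_mem _
    simp [Diff.betti, Module.finrank_zero_of_subsingleton]
  rw [Diff.chi]
  have e : ∀ j : ℤ, (j.negOnePow : ℤ) *
      ((totDiff G).betti (σ.filt C L) (σ.filt C (L + 1)) j : ℤ) =
      ∑ g : σ.RowL L, (j.negOnePow : ℤ) *
        ((sliceDiff k n).betti (slice k n K₀ (σ.degOf g.1 L)) ⊥ (j - G.pos g.1) : ℤ) := by
    intro j
    rw [level_betti H hC hup L j, Nat.cast_sum, Finset.mul_sum]
  rw [finsum_congr e, finsum_sum_comm _ _ fun g _ => hs g]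
  refine Finset.sum_congr rfl fun g _ => ?_
  rw [Diff.chi, mul_finsum]
  refine (finsum_eq_of_bijective (fun j : ℤ => j + G.pos g.1) (Equiv.addRight _).bijective ?_).symm
  intro j
  rw [Int.negOnePow_add, add_sub_cancel_right]
  push_cast [Int.coe_negOnePow_natCast]
  ring

theorem sliceZero_of (H : SliceHyp k n K₀) {L j : ℤ}
    (h : ∀ g p, ∀ t : ℤ, σ.level g t = L → 1 ≤ p → p ≤ n →
      j = (G.pos g : ℤ) - ((p : ℤ) + 1) →
      (∀ b : Fin n, b.val < p → t + (b.val : ℤ) * K₀ ≤ -1) →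
      (∀ b : Fin n, p ≤ b.val → 1 ≤ t + (b.val : ℤ) * K₀) → False) :
    σ.SliceZero K₀ L j := by
  intro g hg z z1 z2 z3
  rcases H.vanish (σ.degOf g L) (j - σ.posOf L) with hsub | ⟨p, hp1, hp2, hp3, hp4⟩
  · have hz : z ∈ (sliceDiff k n).cycles (slice k n K₀ (σ.degOf g L)) ⊥ (j - σ.posOf L) := by
      refine ⟨⟨z1, z2⟩, ?_⟩
      rw [SetLike.mem_coe, Submodule.mem_comap, Submodule.mem_bot]
      exact z3
    have h0 := (Submodule.Quotient.mk_eq_zero
      (((sliceDiff k n).bdries (slice k n K₀ (σ.degOf g L)) ⊥ (j - σ.posOf L)).comap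
        (Submodule.subtype _)) (x := (⟨z, hz⟩ :
          (sliceDiff k n).cycles (slice k n K₀ (σ.degOf g L)) ⊥ (j - σ.posOf L)))).1
        (hsub.elim _ _)
    rw [Submodule.mem_comap, Submodule.subtype_apply, Diff.bdries, Submodule.mem_sup] at h0
    obtain ⟨a, ⟨y, ⟨y1, y2⟩, rfl⟩, b, ⟨hb, -⟩, hab⟩ := h0
    rw [SetLike.mem_coe, Submodule.mem_bot] at hb
    refine ⟨y, y1, ?_, by rw [hb, add_zero] at hab; exact hab⟩
    rwa [show j + 1 - (σ.posOf L : ℤ) = j - σ.posOf L + 1 by ring]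
  · by_cases hpn : p ≤ n
    · exact (h g p _ (σ.level_degOf hg) hp1 hpn (by rw [hg]; omega) hp3 hp4).elim
    · refine ⟨0, Submodule.zero_mem _, Submodule.zero_mem _, ?_⟩
      rw [map_zero, sliceDeg_eq_bot (by omega) z2]

variable (σ) in
/-- The first level above the window. -/
def levWin : ℤ := (σ.K : ℤ) * σ.M + 1

variable (σ) in
/-- A level above which every slice is exact. -/
def levTop : ℤ := (((n + 2) * σ.K : ℕ) : ℤ) * σ.M + 1

omit [IsScalarTower k (Pw k n) (Lam k n)] in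
theorem lev_ge_iff (g : G.ι) (t N : ℤ) :
    N * σ.M + 1 ≤ σ.level g t ↔ N + 1 ≤ t + (σ.K : ℤ) * σ.lev g := by
  have hM := σ.M_pos g
  have hg : (G.pos g : ℤ) < σ.M := by exact_mod_cast σ.pos_lt g
  simp only [level]
  constructor
  · intro h
    by_contra hc
    have := mul_le_mul_of_nonneg_right (show t + (σ.K : ℤ) * σ.lev g ≤ N by omega) hM.le
    omega
  · intro h
    have := mul_le_mul_of_nonneg_right h hM.le
    rw [add_mul, one_mul] at this
    omega

theorem sliceZero_top (H : SliceHyp k n K₀) (hn : 1 ≤ n) {L : ℤ} (j : ℤ) (hL : σ.levTop ≤ L) :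
    σ.SliceZero K₀ L j := by
  refine sliceZero_of H fun g p t hl hp1 _ _ hlo _ => ?_
  rw [← hl, levTop, lev_ge_iff] at hL
  have h' := hlo ⟨0, by omega⟩ (by simp only; omega)
  simp only [CharP.cast_eq_zero, zero_mul, add_zero] at h'
  have h2 : (σ.K : ℤ) * σ.lev g ≤ (σ.K : ℤ) * ((n : ℤ) + 1) :=
    mul_le_mul_of_nonneg_left (by exact_mod_cast σ.lev_le g) (by positivity)
  push_cast at hL
  nlinarith

/-- The summand of a level. -/
def rowWeight (σ : Grading G) (g : G.ι) (t : ℤ) : ℤ :=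
  (-1) ^ G.pos g * if t ≤ 0 then -pFun n σ.K t else 0

omit [IsScalarTower k (Pw k n) (Lam k n)] in
theorem sum_rowWeight (hK : 1 ≤ σ.K) :
    ∑ L ∈ Finset.Ico σ.levWin σ.levTop, ∑ g : σ.RowL L, σ.rowWeight g.1 (σ.degOf g.1 L) =
      ∑ g ∈ Finset.univ.filter (fun g => 1 ≤ σ.lev g),
        (-1) ^ G.pos g * sFun n σ.K (σ.lev g - 1) := by
  have e : ∀ L, ∑ g : σ.RowL L, σ.rowWeight g.1 (σ.degOf g.1 L) =
      ∑ g : G.ι, if G.pos g = σ.posOf L then σ.rowWeight g (σ.degOf g L) else 0 := fun L => by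
    rw [← Finset.sum_filter, Finset.sum_subtype (p := fun g => G.pos g = σ.posOf L) _ (by simp)]
  rw [Finset.sum_congr rfl fun L _ => e L, Finset.sum_comm, Finset.sum_filter]
  refine Finset.sum_congr rfl fun g _ => ?_
  rw [← Finset.sum_filter]
  have hbig : (σ.K : ℤ) * σ.lev g ≤ (((n + 2) * σ.K : ℕ) : ℤ) := by
    push_cast
    rw [mul_comm]
    exact mul_le_mul_of_nonneg_right (by have := σ.lev_le g; omega) (by omega)
  have reidx : ∑ L ∈ (Finset.Ico σ.levWin σ.levTop).filter (fun L => G.pos g = σ.posOf L),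
      σ.rowWeight g (σ.degOf g L) =
      ∑ s ∈ Finset.Ioc (σ.K : ℤ) (((n + 2) * σ.K : ℕ) : ℤ),
        σ.rowWeight g (s - (σ.K : ℤ) * σ.lev g) := by
    refine Finset.sum_nbij' (fun L => σ.degOf g L + (σ.K : ℤ) * σ.lev g)
      (fun s => σ.level g (s - (σ.K : ℤ) * σ.lev g)) ?_ ?_ ?_ ?_ ?_
    · intro L hL
      simp only [Finset.mem_filter, Finset.mem_Ico] at hL
      have h1 := σ.level_degOf hL.2
      have a := (lev_ge_iff (σ := σ) g (σ.degOf g L) σ.K).1 (by rw [h1]; exact hL.1.1)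
      have b := mt (lev_ge_iff (σ := σ) g (σ.degOf g L) (((n + 2) * σ.K : ℕ) : ℤ)).2
        (by rw [h1]; have := hL.1.2; simp only [levTop] at this; omega)
      simp only [Finset.mem_Ioc]
      omega
    · intro s hs
      simp only [Finset.mem_Ioc] at hs
      simp only [Finset.mem_filter, Finset.mem_Ico]
      refine ⟨⟨(lev_ge_iff g _ _).2 (by omega), lt_of_not_ge fun h => ?_⟩,
        ((σ.level_eq_iff g _ _).1 rfl).1⟩
      have := (lev_ge_iff (σ := σ) g _ _).1 h
      omega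
    · intro L hL
      simp only [Finset.mem_filter, Finset.mem_Ico] at hL
      simp only [add_sub_cancel_right]
      exact σ.level_degOf hL.2
    · intro s _
      rw [← ((σ.level_eq_iff g _ _).1 rfl).2, sub_add_cancel]
    · intro L _
      simp only [add_sub_cancel_right]
  rw [reidx]
  simp only [rowWeight, ← Finset.mul_sum]
  rw [Finset.sum_ite, Finset.sum_const_zero, add_zero]
  split_ifs with h1
  · congr 1
    rw [Finset.sum_neg_distrib, sFun, neg_inj]
    obtain ⟨b, hb⟩ := Nat.exists_eq_add_of_le h1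
    refine Finset.sum_nbij' (fun s => s - (σ.K : ℤ) * σ.lev g) (fun t => t + (σ.K : ℤ) * σ.lev g)
      ?_ ?_ (fun s _ => by ring) (fun t _ => by ring) (fun s _ => rfl)
    · intro s hs
      rw [hb] at hbig
      simp only [Finset.mem_filter, Finset.mem_Ioc] at hs
      simp only [Finset.mem_Ioc, hb, Nat.add_sub_cancel_left]
      rw [hb] at hs
      push_cast at hs ⊢
      rw [mul_add, mul_one] at hs ⊢
      rw [mul_comm (b : ℤ)]
      omega
    · intro t ht
      rw [hb] at hbig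
      simp only [Finset.mem_Ioc, hb, Nat.add_sub_cancel_left] at ht
      simp only [Finset.mem_filter, Finset.mem_Ioc, hb]
      push_cast at ht hbig ⊢
      rw [mul_add, mul_one] at hbig ⊢
      rw [mul_comm (b : ℤ)] at ht
      omega
  · have h0 : σ.lev g = 0 := by omega
    rw [Finset.filter_false_of_mem, Finset.sum_empty, mul_zero]
    intro s hs
    simp only [Finset.mem_Ioc] at hs
    simp only [h0, CharP.cast_eq_zero, mul_zero, sub_zero, not_le]
    omega

theorem H_filt_top (H : SliceHyp k n K₀) (hn : 1 ≤ n) (hC : CompHyp K₀ C) (hup : σ.MatUp)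
    (j : ℤ) : Subsingleton ((totDiff G).H (σ.filt C σ.levTop) ⊥ j) := by
  refine Diff.subsingleton_H _ fun x hx => ?_
  obtain ⟨⟨h1, h2⟩, h3⟩ := hx
  rw [SetLike.mem_coe, Submodule.mem_comap, Submodule.mem_bot] at h3
  obtain ⟨y, y1, y2, y3⟩ := push_inf hC hup h1 h2 h3 fun L' hL' => sliceZero_top H hn j hL'
  exact Submodule.mem_sup_left ⟨y, ⟨y1, y2⟩, y3⟩

/-- The Euler characteristic above a level. -/
theorem filt_chi (H : SliceHyp k n K₀) (hn : 1 ≤ n) (hK : σ.K = K₀) (hC : CompHyp K₀ C)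
    (hup : σ.MatUp) : ∀ (N : ℕ) (L : ℤ), L + N = σ.levTop →
      (totDiff G).Fin' (σ.filt C L) ⊥ ∧ (totDiff G).chi (σ.filt C L) ⊥ =
        ∑ L' ∈ Finset.Ico L σ.levTop, ∑ g : σ.RowL L', σ.rowWeight g.1 (σ.degOf g.1 L') := by
  intro N
  induction N with
  | zero =>
    intro L hL
    obtain rfl : L = σ.levTop := by omega
    have hs := H_filt_top (σ := σ) H hn hC hup
    refine ⟨⟨fun j => ?_, 0, fun j _ => hs j⟩, ?_⟩
    · have := hs j
      exact Module.Finite.of_surjective (0 : (Fin 0 → k) →ₗ[k] _)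
        fun y => ⟨0, Subsingleton.elim _ _⟩
    · rw [Finset.Ico_self, Finset.sum_empty, Diff.chi]
      refine finsum_eq_zero_of_forall_eq_zero fun j => ?_
      have := hs j
      simp [Diff.betti, Module.finrank_zero_of_subsingleton]
  | succ N ih =>
    intro L hL
    obtain ⟨f1, c1⟩ := ih (L + 1) (by push_cast at hL; omega)
    have hle : σ.filt C (L + 1) ≤ σ.filt C L := filt_anti (by omega)
    refine ⟨(totDiff G).fin'_mid bot_le hle f1 (fin'_level H hC hup L), ?_⟩
    rw [(totDiff G).chi_add bot_le hle f1 (fin'_level H hC hup L), c1, level_chi H hC hup L]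
    have hlt : L < σ.levTop := by omega
    rw [← Finset.insert_Ico_add_one_left_eq_Ico hlt, Finset.sum_insert (by simp), add_comm]
    congr 1
    refine Finset.sum_congr rfl fun g _ => ?_
    rw [H.chi, rowWeight, hK]

theorem sliceZero_pos (H : SliceHyp k n K₀) (hK : σ.K = K₀) (hK1 : 1 ≤ K₀) {m : ℕ}
    (hm : ∀ g, G.pos g ≤ σ.lev g + m) {L j : ℤ} (hL : L < σ.levWin) (hj : (m : ℤ) < j) :
    σ.SliceZero K₀ L j := by
  refine sliceZero_of H fun g p t hl hp1 _ hjp _ hhi => ?_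
  rw [← hl, levWin, ← not_le, lev_ge_iff, hK] at hL
  have hg := hm g
  have hi := σ.lev_le g
  have h' := hhi ⟨p, by omega⟩ (by simp)
  simp only at h'
  have h2 : (K₀ : ℤ) * ((p : ℤ) + 2) ≤ (K₀ : ℤ) * σ.lev g :=
    mul_le_mul_of_nonneg_left (by omega) (by positivity)
  nlinarith

/-- The window quotient lives in positions at most `m`. -/
theorem H_top_pos (H : SliceHyp k n K₀) (hK : σ.K = K₀) (hK1 : 1 ≤ K₀) (hC : CompHyp K₀ C)
    (hup : σ.MatUp) {m : ℕ} (hm : ∀ g, G.pos g ≤ σ.lev g + m) {j : ℤ} (hj : (m : ℤ) < j) :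
    Subsingleton ((totDiff G).H (top G C) (σ.filt C σ.levWin) j) := by
  refine Diff.subsingleton_H _ fun x hx => ?_
  obtain ⟨⟨h1, h2⟩, h3⟩ := hx
  rw [SetLike.mem_coe, Submodule.mem_comap, totDiff_d] at h3
  obtain ⟨L, hL⟩ := exists_mem_filt (σ := σ) h1
  by_cases hle : σ.levWin ≤ L
  · exact Submodule.mem_sup_right ⟨filt_anti hle hL, h2⟩
  obtain ⟨N, hN⟩ : ∃ N : ℕ, σ.levWin = L + N := ⟨(σ.levWin - L).toNat, by omega⟩
  obtain ⟨y, y1, y2, y3⟩ := push hC hup N hL h2 (hN ▸ h3)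
    fun L' _ hL' => sliceZero_pos H hK hK1 hm (by omega) hj
  rw [Diff.bdries, Submodule.mem_sup]
  refine ⟨_, ⟨y, ⟨filt_le_top L y1, y2⟩, rfl⟩, x - dTot G y,
    ⟨hN ▸ y3, Submodule.sub_mem _ h2 ?_⟩, by rw [totDiff_d]; abel⟩
  simpa [totDiff_d] using (totDiff G).d_deg _ _ y2

end Vale.Agent.P202.NC.Grading
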