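import Vale.Agent.P202.NC.Window.Torsion
import Vale.Agent.P202.NC.Window.Graded
import Vale.Agent.P202.Diag.KoszulVars
import Vale.Agent.P202.Segre.Components

/-!
# P202, general source ring: the Koszul complex of powers of the variables is exact in high degrees

The differential is homogeneous, so a cycle of high degrees extends to a high cycle of the total
complex, where everything is exact.
-/

noncomputable section

namespace Vale.Agent.P202.NC

open Segre Window

variable {k : Type*} [Field k] {n : ℕ}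

/-- The image is concentrated in degree `Q`. -/
def Hom' (Q : ℕ) (a : Pw k n) : Prop := ∀ u : ℤ, u ≠ (Q : ℤ) → (segreHom k n a).coeff u = 0

theorem Hom'.smul_coeff {Q : ℕ} {a : Pw k n} (ha : Hom' Q a) (F : Lam k n) (t : ℤ) :
    (a • F).coeff t = (segreHom k n a).coeff (Q : ℤ) * F.coeff (t - Q) := by
  have e : segreHom k n a = HahnSeries.single (Q : ℤ) ((segreHom k n a).coeff (Q : ℤ)) := by
    refine HahnSeries.ext (funext fun u => ?_)
    by_cases hu : u = (Q : ℤ)
    · subst hu; rw [HahnSeries.coeff_single_same]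
    · rw [HahnSeries.coeff_single_of_ne hu, ha u hu]
  have h1 := HahnSeries.coeff_single_mul_add (r := (segreHom k n a).coeff (Q : ℤ)) (x := F)
    (a := t - Q) (b := (Q : ℤ))
  rw [sub_add_cancel, ← e] at h1
  rw [smul_def, h1]

theorem hom'_pow (Q : ℕ) (r : Fin (n + 1)) : Hom' Q ((MvPowerSeries.X r : Pw k n) ^ Q) := by
  intro u hu
  rw [map_pow, segreHom_X, HahnSeries.single_pow, HahnSeries.coeff_single_of_ne]
  simpa using hu

theorem hom'_koszul (Q : ℕ) : ∀ z : List (Pw k n), (∀ a ∈ z, Hom' Q a) →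
    ∀ h g, Hom' Q ((FreeCx.koszul z).mat h g)
  | [], _, h, g => fun u _ => by
    show (segreHom k n (0 : Pw k n)).coeff u = 0
    simp
  | z :: zs, hz, h, g => by
    have ih := hom'_koszul Q zs fun a ha => hz a (List.mem_cons_of_mem _ ha)
    intro u hu
    show (segreHom k n ((if h.2 = g.2 then (FreeCx.koszul zs).mat h.1 g.1 else 0) +
      (if h.1 = g.1 then (FreeCx.koszul zs).sgn h.1 * (FreeCx.koszul1 z).mat h.2 g.2 else 0))).coeff
        u = 0
    have h1 : ∀ a b, (segreHom k n ((FreeCx.koszul1 z).mat a b)).coeff u = 0 := fun a b => by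
      fin_cases a <;> fin_cases b <;>
        first
        | exact hz z (List.mem_cons_self) u hu
        | simp [FreeCx.koszul1]
    rw [map_add, HahnSeries.coeff_add]
    have e1 : (segreHom k n (if h.2 = g.2 then (FreeCx.koszul zs).mat h.1 g.1 else 0)).coeff u = 0 := by
      split_ifs
      · exact ih _ _ u hu
      · simp
    have e2 : (segreHom k n (if h.1 = g.1 then
        (FreeCx.koszul zs).sgn h.1 * (FreeCx.koszul1 z).mat h.2 g.2 else 0)).coeff u = 0 := by
      split_ifs
      · rcases neg_one_pow_eq_or (Pw k n) ((FreeCx.koszul zs).pos h.1) with e | e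
        · rw [FreeCx.sgn, e, one_mul]; exact h1 _ _
        · rw [FreeCx.sgn, e, neg_one_mul, map_neg, HahnSeries.coeff_neg, h1, neg_zero]
      · simp
    rw [e1, e2, add_zero]

variable (k n) in
/-- The powers of the variables. -/
def powList (Q : ℕ) : List (Pw k n) := List.ofFn fun r => (MvPowerSeries.X r : Pw k n) ^ Q

variable (k n) in
/-- Their Koszul complex. -/
abbrev powKos (Q : ℕ) : FreeCx (Pw k n) := FreeCx.koszul (powList k n Q)

theorem hom'_powList (Q : ℕ) (h g : (powKos k n Q).ι) :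
    Hom' Q ((powKos k n Q).mat h g) := by
  refine hom'_koszul Q _ (fun a ha => ?_) h g
  obtain ⟨r, rfl⟩ := List.mem_ofFn.1 ha
  exact hom'_pow Q r

theorem powList_pos (Q : ℕ) (b : (powKos k n Q).ι) :
    (powKos k n Q).pos b ≤ n + 1 := by
  have := Diag.koszul_lengthLE (powList k n Q) b
  rwa [show (powList k n Q).length = n + 1 by simp [powList]] at this

variable (k n) in
/-- Its grading by degree. -/
def powGrading (Q : ℕ) : Grading (powKos k n Q) where
  lev := (powKos k n Q).pos
  K := Q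
  M := n + 2
  pos_lt b := Nat.lt_succ_of_le (powList_pos Q b)
  lev_le b := powList_pos Q b
  lev_pos _ := le_rfl

theorem powGrading_matUp (Q : ℕ) : (powGrading k n Q).MatUp := by
  intro h g hne
  have hp := (powKos k n Q).mat_pos h g hne
  refine ⟨show (powKos k n Q).pos h ≤ (powKos k n Q).pos g by omega, fun t F hF => ?_⟩
  rw [(hom'_powList Q h g).smul_coeff, hF (t - Q) (by
    simp only [powGrading, powKos, hp, Nat.add_sub_cancel_left, mul_one]
    omega), mul_zero]

theorem powList_acyc (K : ℕ) {Q : ℕ} : AcycHyp (powKos k n Q) (comp k n K) := by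
  refine Window.acycHyp_of_null fun r => ?_
  obtain ⟨N, hN⟩ := FreeCx.exists_kills_koszul (M := Pw k n) (powList k n Q)
    ((MvPowerSeries.X r : Pw k n) ^ Q) (List.mem_ofFn.2 ⟨r, rfl⟩)
  obtain ⟨s, hs⟩ := FreeCx.exists_homotopy _ hN (L := n + 1) (powList_pos Q)
  exact ⟨Q * N * (n + 1 + 1), s, by rw [pow_mul, pow_mul]; exact hs.symm⟩

/-- Exactness on the Segre module in high degrees. -/
theorem high_exact (hn : 1 ≤ n) {K Q : ℕ} {L J : ℤ} (hL : (((n + 2) * Q : ℕ) : ℤ) + 1 ≤ L)
    (u : (powKos k n Q).ι → Lam k n)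
    (hu : ∀ b, u b ∈ highU k n K (L - ((Q * (powKos k n Q).pos b : ℕ) : ℤ)))
    (hdeg : ∀ b, ((powKos k n Q).pos b : ℤ) ≠ J → u b = 0)
    (hd : (powKos k n Q).dA (Lam k n) u = 0) :
    ∃ v, (∀ b, v b ∈ highU k n K (L - ((Q * (powKos k n Q).pos b : ℕ) : ℤ))) ∧
      (∀ b, ((powKos k n Q).pos b : ℤ) ≠ J + 1 → v b = 0) ∧
      (powKos k n Q).dA (Lam k n) v = u := by
  classical
  let σ := powGrading k n Q
  let uU : (powKos k n Q).ι → ↥(comp k n K none) := fun b => ⟨u b, (hu b).1⟩
  have hucyc : uU ∈ ((powKos k n Q).diff (↥(comp k n K none)) k).cycles ⊤ ⊥ J := by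
    refine ⟨⟨trivial, fun b hb => Subtype.ext (hdeg b hb)⟩, ?_⟩
    rw [SetLike.mem_coe, Submodule.mem_comap, Submodule.mem_bot]
    funext b
    refine Subtype.ext ?_
    show (((powKos k n Q).dA _ uU b : ↥(comp k n K none)) : Lam k n) = 0
    rw [coe_dA]
    exact congrFun hd b
  obtain ⟨x, hx, hxu⟩ := extend_cycle (G := powKos k n Q) Window.compHyp (powList_acyc (k := k) (n := n) K)
    Window.augHyp hucyc
  obtain ⟨⟨x1, x2⟩, x3⟩ := hx
  rw [SetLike.mem_coe, Submodule.mem_comap, Submodule.mem_bot, totDiff_d] at x3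
  -- keep the high degrees
  let keep : (powKos k n Q).ι → ℤ → Prop := fun b t => L ≤ t + ((Q * (powKos k n Q).pos b : ℕ) : ℤ)
  let yc : (powKos k n Q).ι → Cov n → ℤ → Coef k n := fun b e t => if keep b t then (x (b, e)).coeff t else 0
  have hb : ∀ b e, BddBelow (Function.support (yc b e)) := fun b e =>
    ⟨L - ((Q * (powKos k n Q).pos b : ℕ) : ℤ), fun t ht => by
      by_contra hc
      exact ht (if_neg (fun hk => hc (by simp only [keep] at hk; omega)))⟩
  let xt : Tot (powKos k n Q) := fun p => HahnSeries.ofSuppBddBelow (yc p.1 p.2) (hb p.1 p.2)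
  have hxt : ∀ b e t, (xt (b, e)).coeff t = if keep b t then (x (b, e)).coeff t else 0 :=
    fun b e t => by simp [xt, yc]
  set L' : ℤ := (L - 1) * σ.M + 1 with hL'
  have hkeep : ∀ b t, σ.level b t < L' ↔ ¬ keep b t := fun b t => by
    rw [← not_le, hL', Grading.lev_ge_iff]
    simp only [keep, σ, powGrading, Nat.cast_mul]
    omega
  have m1 : xt ∈ σ.filt (comp k n K) L' := by
    refine ⟨fun b e t α h => ?_, fun b e t ht => ?_⟩
    · rw [hxt] at h
      split_ifs at h with hh
      · exact x1 b e t α h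
      · simp at h
    · rw [hxt, if_neg ((hkeep b t).1 ht)]
  have m2 : xt ∈ (totDiff (powKos k n Q)).deg J := by
    intro b e he
    refine HahnSeries.ext (funext fun t => ?_)
    rw [hxt, x2 b e he]
    simp
  have m3 : dTot (powKos k n Q) xt = 0 := by
    funext ⟨h, e⟩
    refine HahnSeries.ext (funext fun t => ?_)
    have h0 : (dTot (powKos k n Q) x (h, e)).coeff t = 0 := by rw [x3]; simp
    rw [Pi.zero_apply, HahnSeries.coeff_zero, dTot_apply, HahnSeries.coeff_add,
      FreeCx.dA_apply, HahnSeries.coeff_sum, HahnSeries.coeff_smul]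
    rw [dTot_apply, HahnSeries.coeff_add, FreeCx.dA_apply, HahnSeries.coeff_sum,
      HahnSeries.coeff_smul] at h0
    have hA : ∑ b, ((powKos k n Q).mat h b • xt (b, e)).coeff t =
        if keep h t then ∑ b, ((powKos k n Q).mat h b • x (b, e)).coeff t else 0 := by
      have key : ∀ b, ((powKos k n Q).mat h b • xt (b, e)).coeff t =
          if keep h t then ((powKos k n Q).mat h b • x (b, e)).coeff t else 0 := fun b => by
        by_cases hm : (powKos k n Q).mat h b = 0
        · simp [hm]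
        · have hp := (powKos k n Q).mat_pos h b hm
          have hk : keep b (t - Q) ↔ keep h t := by
            simp only [keep, hp, mul_add, mul_one, Nat.cast_add]
            omega
          rw [(hom'_powList Q h b).smul_coeff, (hom'_powList Q h b).smul_coeff, hxt]
          by_cases hh : keep h t
          · rw [if_pos hh, if_pos (hk.2 hh)]
          · rw [if_neg hh, if_neg (fun hc => hh (hk.1 hc)), mul_zero]
      rw [Finset.sum_congr rfl fun b _ => key b]
      split_ifs <;> simp
    have hD : ∀ z : Tot (powKos k n Q), (delta k (Lam k n) (fun e' => z (h, e')) e).coeff t =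
        delta k (Coef k n) (fun e' => (z (h, e')).coeff t) e := fun z =>
      delta_map (R := k) (R' := k) (coeffHom t) (fun e' => z (h, e')) e
    rw [hA, hD]
    rw [hD] at h0
    by_cases hh : keep h t
    · rw [if_pos hh, show (fun e' => (xt (h, e')).coeff t) = fun e' => (x (h, e')).coeff t from
        funext fun e' => by rw [hxt, if_pos hh]]
      exact h0
    · rw [if_neg hh, show (fun e' => (xt (h, e')).coeff t) = 0 from
        funext fun e' => by rw [hxt, if_neg hh, Pi.zero_apply], map_zero, Pi.zero_apply, smul_zero,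
        add_zero]
  have hle : σ.levTop ≤ L' := by
    simp only [Grading.levTop, hL', σ, powGrading]
    have := mul_le_mul_of_nonneg_right (show (((n + 2) * Q : ℕ) : ℤ) ≤ L - 1 by omega)
      (show (0 : ℤ) ≤ ((n + 2 : ℕ) : ℤ) by positivity)
    omega
  obtain ⟨y, y1, y2, y3⟩ := Grading.push_inf (σ := σ) Window.compHyp (powGrading_matUp Q) m1 m2 m3
    fun L'' hL'' => Grading.sliceZero_top (Window.sliceHyp k n K hn) hn J (hle.trans hL'')
  refine ⟨fun b => y (b, none), fun b => ⟨y1.1 b none, fun t ht => y1.2 b none t ((hkeep b t).2 ?_)⟩,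
    fun b hb' => y2 b none (by simpa [cdeg] using hb'), funext fun b => ?_⟩
  · simp only [keep]
    omega
  · have h0 := congrFun y3 (b, none)
    rw [dTot_apply, delta_none, smul_zero, add_zero] at h0
    rw [h0]
    refine HahnSeries.ext (funext fun t => ?_)
    rw [hxt, hxu]
    show (if keep b t then (u b).coeff t else 0) = (u b).coeff t
    split_ifs with hh
    · rfl
    · exact ((hu b).2 t (by simp only [keep] at hh; omega)).symm

theorem smul_mem_highU (K : ℕ) {Q : ℕ} {h g : (powKos k n Q).ι} {L : ℤ} {x : Lam k n}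
    (hx : x ∈ highU k n K (L - ((Q * (powKos k n Q).pos g : ℕ) : ℤ))) :
    (powKos k n Q).mat h g • x ∈
      highU k n K (L - ((Q * (powKos k n Q).pos h : ℕ) : ℤ)) := by
  by_cases hm : (powKos k n Q).mat h g = 0
  · rw [hm, zero_smul]
    exact Submodule.zero_mem _
  · have hp := (powKos k n Q).mat_pos h g hm
    refine ⟨Submodule.smul_mem _ _ hx.1, fun t ht => ?_⟩
    rw [(hom'_powList Q h g).smul_coeff, hx.2 (t - Q) (by
      rw [hp, mul_add, mul_one, Nat.cast_add]; omega), mul_zero]

theorem smul_mem_highQ (K : ℕ) {Q : ℕ} (c : Pw k n) {h g : (powKos k n Q).ι} {L : ℤ}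
    {x : Lam k n}
    (hx : x ∈ highQ K c (L - ((Q * (powKos k n Q).pos g : ℕ) : ℤ))) :
    (powKos k n Q).mat h g • x ∈
      highQ K c (L - ((Q * (powKos k n Q).pos h : ℕ) : ℤ)) := by
  obtain ⟨a, ha, b, hb, rfl⟩ := Submodule.mem_sup.1 hx
  rw [smul_add]
  exact Submodule.add_mem_sup (smul_mem_highU K ha) (Submodule.smul_mem _ _ hb)

theorem mem_highU_of_smul {K : ℕ} {c : Pw k n} (hc : c ≠ 0) {o : ℕ}
    (ho : (segreHom k n c).order = (o : ℤ)) {N : ℤ} {w : Lam k n} (hw : w ∈ comp k n K none)
    (h : c • w ∈ highU k n K N) : w ∈ highU k n K (N - o) := by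
  have : NoZeroDivisors (Coef k n) := inferInstance
  refine ⟨hw, fun t ht => ?_⟩
  by_cases hw0 : w = 0
  · simp [hw0]
  refine HahnSeries.coeff_eq_zero_of_lt_order ?_
  have hord : (segreHom k n c * w).order = (o : ℤ) + w.order := by
    rw [HahnSeries.order_mul (Band.segreHom_ne_zero hc) hw0, ho]
  by_contra hlt
  exact HahnSeries.coeff_order_eq_zero.not.2 (mul_ne_zero (Band.segreHom_ne_zero hc) hw0)
    (h.2 _ (by omega))

/-- Exactness modulo `c` in high degrees. -/
theorem highQ_exact (hn : 1 ≤ n) {K Q : ℕ} {c : Pw k n} (hc : c ≠ 0) {o : ℕ}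
    (ho : (segreHom k n c).order = (o : ℤ)) {L : ℤ}
    (hL : (((n + 2) * Q : ℕ) : ℤ) + 1 + o ≤ L) (J : ℤ)
    (y : (powKos k n Q).ι → Lam k n)
    (hy : ∀ b, y b ∈ highQ K c (L - ((Q * (powKos k n Q).pos b : ℕ) : ℤ)))
    (hdeg : ∀ b, ((powKos k n Q).pos b : ℤ) ≠ J → y b = 0)
    (hd : ∀ b, (powKos k n Q).dA (Lam k n) y b ∈ cU K c) :
    ∃ w, (∀ b, w b ∈ highQ K c (L - ((Q * (powKos k n Q).pos b : ℕ) : ℤ))) ∧
      (∀ b, ((powKos k n Q).pos b : ℤ) ≠ J + 1 → w b = 0) ∧
      ∀ b, (powKos k n Q).dA (Lam k n) w b - y b ∈ cU K c := by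
  classical
  have split : ∀ b, ∃ a, a ∈ highU k n K (L - ((Q * (powKos k n Q).pos b : ℕ) : ℤ)) ∧ y b - a ∈ cU K c ∧
      (((powKos k n Q).pos b : ℤ) ≠ J → a = 0) := fun b => by
    by_cases hb : ((powKos k n Q).pos b : ℤ) = J
    · obtain ⟨a, ha, r, hr, e⟩ := Submodule.mem_sup.1 (hy b)
      exact ⟨a, ha, by rw [← e, add_sub_cancel_left]; exact hr, fun h => absurd hb h⟩
    · exact ⟨0, Submodule.zero_mem _, by rw [sub_zero, hdeg b hb]; exact Submodule.zero_mem _,
        fun _ => rfl⟩
  choose a ha hya hadeg using split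
  have hda : ∀ b, (powKos k n Q).dA (Lam k n) a b ∈ cU K c := fun b => by
    have e : (powKos k n Q).dA (Lam k n) a b = (powKos k n Q).dA (Lam k n) y b - (powKos k n Q).dA (Lam k n) (y - a) b := by
      rw [map_sub, Pi.sub_apply, sub_sub_cancel]
    rw [e]
    exact Submodule.sub_mem _ (hd b)
      (Submodule.sum_mem _ fun g _ => Submodule.smul_mem _ _ (hya g))
  choose w hw hwe using hda
  have hwdeg : ∀ b, ((powKos k n Q).pos b : ℤ) ≠ J - 1 → w b = 0 := fun b hb => smul_left_cancel₀ hc (by
    have := hwe b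
    rw [LinearMap.lsmul_apply] at this
    rw [this, FreeCx.dA_apply]
    refine Finset.sum_eq_zero fun g _ => ?_
    by_cases hm : (powKos k n Q).mat b g = 0
    · rw [hm, zero_smul]
    · rw [hadeg g (by have := (powKos k n Q).mat_pos b g hm; omega), smul_zero])
  have hw' : ∀ b, w b ∈ highU k n K (L - o - ((Q * (powKos k n Q).pos b : ℕ) : ℤ)) := fun b => by
    rw [sub_right_comm]
    refine mem_highU_of_smul hc ho (hw b) ?_
    have := hwe b
    rw [LinearMap.lsmul_apply] at this
    rw [this]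
    exact Submodule.sum_mem _ fun g _ => smul_mem_highU K (ha g)
  have hcw : c • w = (powKos k n Q).dA (Lam k n) a := funext fun b => hwe b
  have hdw : (powKos k n Q).dA (Lam k n) w = 0 := by
    have h0 : (powKos k n Q).dA (Lam k n) (c • w) = 0 := by rw [hcw, FreeCx.dA_dA]
    rw [map_smul] at h0
    exact funext fun b => smul_left_cancel₀ hc (congrFun h0 b)
  obtain ⟨v, v1, v2, v3⟩ := high_exact hn (L := L - o) (by omega) w hw' hwdeg hdw
  rw [sub_add_cancel] at v2
  have hcv : ∀ b, c • v b ∈ highU k n K (L - ((Q * (powKos k n Q).pos b : ℕ) : ℤ)) := fun b => by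
    refine ⟨Submodule.smul_mem _ _ (v1 b).1, fun t ht => ?_⟩
    have : NoZeroDivisors (Coef k n) := inferInstance
    by_cases hv0 : v b = 0
    · simp [hv0]
    refine HahnSeries.coeff_eq_zero_of_lt_order ?_
    show t < (segreHom k n c * v b).order
    rw [HahnSeries.order_mul (Band.segreHom_ne_zero hc) hv0, ho]
    by_contra hlt
    exact HahnSeries.coeff_order_eq_zero.not.2 hv0 ((v1 b).2 _ (by omega))
  obtain ⟨r, r1, r2, r3⟩ := high_exact hn (by omega) (a - c • v)
    (fun b => Submodule.sub_mem _ (ha b) (hcv b))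
    (fun b hb => by
      rw [Pi.sub_apply, Pi.smul_apply, hadeg b hb, v2 b hb, smul_zero, sub_zero])
    (by rw [map_sub, map_smul, v3, hcw, sub_self])
  refine ⟨r, fun b => Submodule.mem_sup_left (r1 b), r2, fun b => ?_⟩
  rw [r3, Pi.sub_apply, Pi.smul_apply,
    show a b - c • v b - y b = -((y b - a b) + c • v b) by abel]
  exact Submodule.neg_mem _ (Submodule.add_mem _ (hya b) ⟨v b, (v1 b).1, rfl⟩)

end Vale.Agent.P202.NC
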