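import Vale.Agent.P202.Window

/-!
# P202, general source ring: high degrees of the Segre module modulo a power series

Everything is a submodule of the Laurent model: the Segre module `comp none`, its multiples of `c`
and its part in degrees at least `N`.
-/

noncomputable section

namespace Vale.Agent.P202

/-- Families with values in a submodule, over `k`. -/
def FreeCx.fam {A : Type*} [CommRing A] (G : FreeCx A) {M : Type*} [AddCommGroup M] [Module A M]
    (k : Type*) [CommRing k] [Algebra k A] [Module k M] [IsScalarTower k A M] (X : Submodule A M) :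
    Submodule k (G.ι → M) where
  carrier := {f | ∀ g, f g ∈ X}
  add_mem' := fun hf hf' g => X.add_mem (hf g) (hf' g)
  zero_mem' := fun _ => X.zero_mem
  smul_mem' := fun r _ hf g => X.smul_of_tower_mem r (hf g)

namespace NC

open Segre Window

variable (k : Type*) [Field k] (n K : ℕ)

/-- The Segre module in degrees at least `N`. -/
def highU (N : ℤ) : Submodule (Pw k n) (Lam k n) where
  carrier := {u | u ∈ comp k n K none ∧ ∀ t, t < N → u.coeff t = 0}
  add_mem' := by
    intro u v hu hv
    exact ⟨Submodule.add_mem _ hu.1 hv.1, fun t ht => by simp [hu.2 t ht, hv.2 t ht]⟩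
  zero_mem' := ⟨Submodule.zero_mem _, fun t _ => by simp⟩
  smul_mem' := by
    intro a u hu
    exact ⟨Submodule.smul_mem _ a hu.1, fun t ht =>
      smul_coeff_eq_zero (K := 0) (by simp) (lo := t) (fun t' ht' => hu.2 t' (by omega))
        (by simp)⟩

variable {k n} (c : Pw k n)

/-- The multiples of `c` in the Segre module. -/
def cU : Submodule (Pw k n) (Lam k n) :=
  (comp k n K none).map (LinearMap.lsmul (Pw k n) (Lam k n) c)

/-- The high degrees together with the multiples of `c`. -/
def highQ (N : ℤ) : Submodule (Pw k n) (Lam k n) := highU k n K N ⊔ cU K c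

/-- The low degrees modulo `c` are small. -/
def LowBound : Prop :=
  ∃ C : ℕ, ∀ K : ℕ, 1 ≤ K → ∀ N : ℕ, ∃ (r : ℕ) (ρ : Lam k n →ₗ[k] (Fin r → k)),
    r ≤ C * (N + (n + 1) * K) ^ n ∧
    ∀ u ∈ comp k n K none, ρ u = 0 → u ∈ highQ K c (N : ℤ)

end NC

end Vale.Agent.P202
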