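import Vale.Agent.P202.HomAlg.Pair
import Vale.Agent.P202.NC.Window.HighDefs

/-!
# P202, general source ring: homology bounded through a null-homotopic Koszul complex

If every element of `zs` is null-homotopic on `G`, then `G ⊗ M` is a retract of
`(G ⊗ Koszul zs) ⊗ M` compatibly with every pair of submodules. If moreover the Koszul complex is
exact on a stable family of submodules `Z b` of small codimension, the homology of the pair is
small.
-/

noncomputable section

namespace Vale.Agent.P202.FreeCx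

open Matrix Finset

section Matrices

variable {A : Type*} [CommRing A] {α β γ : Type*} [Fintype α] [Fintype β] [Fintype γ]
  (M : Type*) [AddCommGroup M] [Module A M]

/-- A matrix acting on families of module elements. -/
def app (P : Matrix α β A) : (β → M) →ₗ[A] (α → M) where
  toFun f a := ∑ b, P a b • f b
  map_add' f f' := by funext a; simp [sum_add_distrib]
  map_smul' c f := by funext a; simp [smul_sum, smul_comm c]

omit [Fintype α] in
theorem app_apply (P : Matrix α β A) (f : β → M) (a : α) : app M P f a = ∑ b, P a b • f b := rfl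

omit [Fintype α] in
theorem app_mul (P : Matrix α β A) (Q : Matrix β γ A) (f : γ → M) :
    app M (P * Q) f = app M P (app M Q f) := by
  funext a
  simp only [app_apply, Matrix.mul_apply, sum_smul, smul_sum, smul_smul]
  exact sum_comm

theorem app_one [DecidableEq α] (f : α → M) : app M (1 : Matrix α α A) f = f := by
  funext a
  simp [app_apply, Matrix.one_apply, ite_smul]

theorem dA_eq_app (G : FreeCx A) (f : G.ι → M) : G.dA M f = app M G.mat f := rfl

omit [Fintype α] in
theorem app_mem {X : Submodule A M} (P : Matrix α β A) {f : β → M} (hf : ∀ b, f b ∈ X) (a : α) :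
    app M P f a ∈ X :=
  X.sum_mem fun b _ => X.smul_mem _ (hf b)

end Matrices

variable {A : Type*} [CommRing A]

/-- The differential of a tensor product, on pairs of indices. -/
def tmat (G K : FreeCx A) : Matrix (G.ι × K.ι) (G.ι × K.ι) A := (G.tensor K).mat

theorem tmat_apply (G K : FreeCx A) (h g : G.ι) (b' b : K.ι) :
    tmat G K (h, b') (g, b) =
      (if b' = b then G.mat h g else 0) + (if h = g then G.sgn h * K.mat b' b else 0) := rfl

/-- `E` and `P` exhibit `G` as a retract of `G ⊗ K`. -/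
structure Retract (G K : FreeCx A) (E : Matrix (G.ι × K.ι) G.ι A)
    (P : Matrix G.ι (G.ι × K.ι) A) : Prop where
  E_pos : ∀ (p : G.ι × K.ι) g, E p g ≠ 0 → G.pos p.1 + K.pos p.2 = G.pos g
  P_pos : ∀ g (p : G.ι × K.ι), P g p ≠ 0 → G.pos g = G.pos p.1 + K.pos p.2
  E_comm : tmat G K * E = E * G.mat
  P_comm : G.mat * P = P * tmat G K
  P_E : P * E = 1

theorem exists_shifted_homotopy (G : FreeCx A) {z : A}
    (h : ∃ s : Matrix G.ι G.ι A, G.mat * s + s * G.mat = z • (1 : Matrix G.ι G.ι A)) :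
    ∃ s : Matrix G.ι G.ι A, (∀ a b, s a b ≠ 0 → G.pos a = G.pos b + 1) ∧
      G.mat * s + s * G.mat = z • (1 : Matrix G.ι G.ι A) := by
  obtain ⟨s, hs⟩ := h
  let s' : Matrix G.ι G.ι A := Matrix.of fun a b => if G.pos a = G.pos b + 1 then s a b else 0
  refine ⟨s', fun a b hab => by
    by_contra hne
    exact hab (if_neg hne), ?_⟩
  ext a b
  have h1 : ∀ a b, (G.mat * s') a b = if G.pos a = G.pos b then (G.mat * s) a b else 0 := by
    intro a b
    simp only [s', Matrix.mul_apply, Matrix.of_apply]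
    split_ifs with h
    · refine sum_congr rfl fun l _ => ?_
      by_cases hm : G.mat a l = 0
      · simp [hm]
      · rw [if_pos (by have := G.mat_pos a l hm; omega)]
    · refine sum_eq_zero fun l _ => ?_
      by_cases hm : G.mat a l = 0
      · simp [hm]
      · rw [if_neg (by have := G.mat_pos a l hm; omega), mul_zero]
  have h2 : ∀ a b, (s' * G.mat) a b = if G.pos a = G.pos b then (s * G.mat) a b else 0 := by
    intro a b
    simp only [s', Matrix.mul_apply, Matrix.of_apply]
    split_ifs with h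
    · refine sum_congr rfl fun l _ => ?_
      by_cases hm : G.mat l b = 0
      · simp [hm]
      · rw [if_pos (by have := G.mat_pos l b hm; omega)]
    · refine sum_eq_zero fun l _ => ?_
      by_cases hm : G.mat l b = 0
      · simp [hm]
      · rw [if_neg (by have := G.mat_pos l b hm; omega), zero_mul]
  have h3 := congrFun (congrFun hs a) b
  rw [Matrix.add_apply, h1, h2]
  rw [Matrix.add_apply] at h3
  by_cases h : G.pos a = G.pos b
  · rw [if_pos h, if_pos h, h3]
  · rw [if_neg h, if_neg h, add_zero, Matrix.smul_apply,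
      Matrix.one_apply_ne (fun e => h (congrArg G.pos e)), smul_zero]

theorem retract_one (G : FreeCx A) : ∃ E P, Retract G (one A) E P := by
  let E : Matrix (G.ι × Unit) G.ι A := Matrix.of fun p g => if p.1 = g then 1 else 0
  let P : Matrix G.ι (G.ι × Unit) A := Matrix.of fun g p => if g = p.1 then 1 else 0
  let t : Matrix (G.ι × Unit) (G.ι × Unit) A := tmat G (one A)
  have ht : ∀ p q, t p q = G.mat p.1 q.1 := by
    rintro ⟨a, ⟨⟩⟩ ⟨b, ⟨⟩⟩
    change (if () = () then G.mat a b else 0) + (if a = b then G.sgn a * (0 : A) else 0) = _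
    simp
  have h1 : ∀ p g, E p g ≠ 0 → G.pos p.1 + 0 = G.pos g := by
    intro p g h
    have : p.1 = g := by by_contra hne; exact h (if_neg hne)
    simp [this]
  have h2 : ∀ g p, P g p ≠ 0 → G.pos g = G.pos p.1 + 0 := by
    intro g p h
    have : g = p.1 := by by_contra hne; exact h (if_neg hne)
    simp [this]
  have h3 : t * E = E * G.mat := by
    ext p b
    simp [Matrix.mul_apply, ht, E, Fintype.sum_prod_type]
  have h4 : G.mat * P = P * t := by
    ext a p
    simp [Matrix.mul_apply, ht, P, Fintype.sum_prod_type]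
  have h5 : P * E = 1 := by
    ext a b
    simp [Matrix.mul_apply, E, P, Fintype.sum_prod_type, Matrix.one_apply]
    split_ifs <;> simp
  exact ⟨E, P, h1, h2, h3, h4, h5⟩

/-- The differential after adding one Koszul factor, on triples of indices. -/
def tmat3 (G K : FreeCx A) (z : A) :
    Matrix (G.ι × (K.ι × Fin 2)) (G.ι × (K.ι × Fin 2)) A := tmat G (K.tensor (koszul1 z))

theorem tmat_assoc (G K : FreeCx A) (z : A) (h g : G.ι) (b' b : K.ι) (i' i : Fin 2) :
    tmat3 G K z (h, (b', i')) (g, (b, i)) =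
      (if i' = i then tmat G K (h, b') (g, b) else 0) +
        if h = g ∧ b' = b then G.sgn h * K.sgn b' * !![0, z; 0, 0] i' i else 0 := by
  rw [tmat_apply]
  change (if (b', i') = (b, i) then G.mat h g else 0) + (if h = g then G.sgn h *
    ((if i' = i then K.mat b' b else 0) +
      (if b' = b then K.sgn b' * !![0, z; 0, 0] i' i else 0)) else 0) = _
  by_cases h1 : b' = b <;> by_cases h2 : i' = i <;> by_cases h3 : h = g <;>
    simp [h1, h2, h3, mul_add, mul_assoc, add_assoc]

theorem sum_step {α β : Type*} [Fintype α] [Fintype β] (F : α × (β × Fin 2) → A) :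
    ∑ q, F q = ∑ p : α × β, (F (p.1, (p.2, 0)) + F (p.1, (p.2, 1))) := by
  simp [Fintype.sum_prod_type, Fin.sum_univ_two]

theorem retract_step {G K : FreeCx A} {E : Matrix (G.ι × K.ι) G.ι A}
    {P : Matrix G.ι (G.ι × K.ι) A} (hR : Retract G K E P) {z : A}
    (hs : ∃ s : Matrix G.ι G.ι A, G.mat * s + s * G.mat = z • (1 : Matrix G.ι G.ι A)) :
    ∃ E' P', Retract G (K.tensor (koszul1 z)) E' P' := by
  obtain ⟨s, hsp, hsz⟩ := G.exists_shifted_homotopy hs
  let D : Matrix G.ι G.ι A := Matrix.diagonal G.sgn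
  let εT : G.ι × K.ι → A := fun p => G.sgn p.1 * K.sgn p.2
  let Q : Matrix G.ι (G.ι × K.ι) A := s * (D * P)
  let E' : Matrix (G.ι × (K.ι × Fin 2)) G.ι A :=
    Matrix.of fun p g => if p.2.2 = 0 then E (p.1, p.2.1) g else 0
  let P' : Matrix G.ι (G.ι × (K.ι × Fin 2)) A :=
    Matrix.of fun g p => if p.2.2 = 0 then P g (p.1, p.2.1) else Q g (p.1, p.2.1)
  have hQ : ∀ g p, Q g p ≠ 0 → G.pos g = G.pos p.1 + K.pos p.2 + 1 := by
    intro g p h
    simp only [Q, D, Matrix.mul_apply (M := s), Matrix.diagonal_mul] at h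
    obtain ⟨l, -, hl⟩ := exists_ne_zero_of_sum_ne_zero h
    have h1 := hsp g l (left_ne_zero_of_mul hl)
    have h2 := hR.P_pos l p (right_ne_zero_of_mul (right_ne_zero_of_mul hl))
    omega
  have hanti : D * G.mat = -(G.mat * D) := by
    ext a b
    simp only [D, Matrix.diagonal_mul, Matrix.mul_diagonal, Matrix.neg_apply]
    by_cases hm : G.mat a b = 0
    · simp [hm]
    · rw [show G.sgn b = -G.sgn a by simp [sgn, G.mat_pos a b hm, pow_succ]]
      ring
  have hcomm : D * P = P * Matrix.diagonal εT := by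
    ext a p
    simp only [D, Matrix.diagonal_mul, Matrix.mul_diagonal, εT]
    by_cases hp : P a p = 0
    · simp [hp]
    · simp only [sgn, hR.P_pos a p hp, pow_add]
      ring
  have hQc : G.mat * Q = z • (P * Matrix.diagonal εT) + Q * tmat G K := by
    calc G.mat * Q = (z • (1 : Matrix G.ι G.ι A) - s * G.mat) * (D * P) := by
          rw [← hsz, add_sub_cancel_right, ← Matrix.mul_assoc]
      _ = z • (D * P) - s * ((G.mat * D) * P) := by
          rw [Matrix.sub_mul, Matrix.smul_mul, Matrix.one_mul, Matrix.mul_assoc s,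
            ← Matrix.mul_assoc G.mat]
      _ = z • (D * P) + s * ((D * G.mat) * P) := by
          rw [hanti, Matrix.neg_mul, Matrix.mul_neg, sub_eq_add_neg]
      _ = _ := by
          simp only [hcomm, Q]
          simp only [← hcomm, Matrix.mul_assoc, hR.P_comm]
  have h1 : ∀ (p : G.ι × (K.ι × Fin 2)) g0, E' p g0 ≠ 0 →
      G.pos p.1 + (K.pos p.2.1 + p.2.2.val) = G.pos g0 := by
    rintro ⟨g, b, i⟩ g0 h
    simp only [E', Matrix.of_apply] at h
    split_ifs at h with hi
    · have := hR.E_pos (g, b) g0 h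
      simp only [hi, Fin.val_zero, add_zero]
      exact this
    · exact absurd rfl h
  have h2 : ∀ g0 (p : G.ι × (K.ι × Fin 2)), P' g0 p ≠ 0 →
      G.pos g0 = G.pos p.1 + (K.pos p.2.1 + p.2.2.val) := by
    rintro g0 ⟨g, b, i⟩ h
    simp only [P', Matrix.of_apply] at h
    split_ifs at h with hi
    · have := hR.P_pos g0 (g, b) h
      simp only [hi, Fin.val_zero, add_zero]
      exact this
    · have := hQ g0 (g, b) h
      have hi' : i.val ≠ 0 := fun e => hi (Fin.ext e)
      have := i.isLt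
      simp only at *
      omega
  have h3 : tmat3 G K z * E' = E' * G.mat := by
    ext ⟨h, b', i'⟩ g0
    rw [Matrix.mul_apply, Matrix.mul_apply]
    refine (sum_step (α := G.ι) (β := K.ι) _).trans ?_
    simp only [tmat_assoc, E', Matrix.of_apply, if_true, one_ne_zero, if_false, mul_zero, add_zero]
    have hE := congrFun (congrFun hR.E_comm (h, b')) g0
    rw [Matrix.mul_apply, Matrix.mul_apply] at hE
    fin_cases i' <;> simp [← hE]
  have h4 : G.mat * P' = P' * tmat3 G K z := by
    ext g0 ⟨g, b, i⟩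
    rw [Matrix.mul_apply, Matrix.mul_apply]
    refine Eq.trans ?_ (sum_step (α := G.ι) (β := K.ι) _).symm
    simp only [tmat_assoc, P', Matrix.of_apply, if_true, one_ne_zero, if_false]
    fin_cases i
    · have hP := congrFun (congrFun hR.P_comm g0) (g, b)
      rw [Matrix.mul_apply, Matrix.mul_apply] at hP
      simp [hP]
    · have hQ2 := congrFun (congrFun hQc g0) (g, b)
      rw [Matrix.add_apply, Matrix.smul_apply, Matrix.mul_diagonal, Matrix.mul_apply,
        Matrix.mul_apply, smul_eq_mul] at hQ2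
      simp only [Fin.mk_one, one_ne_zero, if_false, hQ2]
      rw [Finset.sum_add_distrib]
      congr 1
      · rw [Finset.sum_eq_single (g, b)]
        · simp [εT]; ring
        · rintro ⟨c, d⟩ - hne
          have : ¬ (c = g ∧ d = b) := fun e => hne (Prod.ext e.1 e.2)
          simp [this]
        · simp
      · simp
  have h5 : P' * E' = 1 := by
    ext g0 g1
    rw [Matrix.mul_apply]
    refine (sum_step (α := G.ι) (β := K.ι) _).trans ?_
    simp only [P', E', Matrix.of_apply, if_true, one_ne_zero, if_false, mul_zero, add_zero]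
    have hPE := congrFun (congrFun hR.P_E g0) g1
    rw [Matrix.mul_apply] at hPE
    exact hPE
  exact ⟨E', P', h1, h2, h3, h4, h5⟩

theorem exists_retract (G : FreeCx A) : ∀ (zs : List A),
    (∀ z ∈ zs, ∃ s : Matrix G.ι G.ι A, G.mat * s + s * G.mat = z • (1 : Matrix G.ι G.ι A)) →
      ∃ E P, Retract G (koszul zs) E P
  | [], _ => retract_one G
  | z :: zs, hs => by
    obtain ⟨E, P, hR⟩ := exists_retract G zs fun w hw => hs w (List.mem_cons_of_mem _ hw)
    exact retract_step hR (hs z (List.mem_cons_self ..))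

section Pairs

variable {k : Type*} [Field k] [Algebra k A] {M : Type*} [AddCommGroup M] [Module A M] [Module k M]
  [IsScalarTower k A M]

theorem mem_fam {G : FreeCx A} {X : Submodule A M} {f : G.ι → M} :
    f ∈ G.fam k X ↔ ∀ g, f g ∈ X := Iff.rfl

theorem app_mem_deg {G T : FreeCx A} {P : Matrix T.ι G.ι A}
    (hP : ∀ p g, P p g ≠ 0 → T.pos p = G.pos g) {j : ℤ} {f : G.ι → M}
    (hf : f ∈ (G.diff M k).deg j) : app M P f ∈ (T.diff M k).deg j := fun p hp => by
  rw [app_apply]
  refine sum_eq_zero fun g _ => ?_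
  by_cases h : P p g = 0
  · simp [h]
  · rw [hf g (by have := hP p g h; omega), smul_zero]

section Primitive

variable (G K : FreeCx A) {Y : Submodule A M}
  (Z : K.ι → Submodule A M)

/-- Families supported in one position of the tensor product. -/
def tdeg (j : ℤ) : Submodule A (G.ι × K.ι → M) where
  carrier := {f | ∀ p, ((G.pos p.1 + K.pos p.2 : ℕ) : ℤ) ≠ j → f p = 0}
  add_mem' := fun hf hf' p hp => by simp [hf p hp, hf' p hp]
  zero_mem' := fun _ _ => rfl
  smul_mem' := fun c _ hf p hp => by simp [hf p hp]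

theorem app_tmat_mem_deg {j : ℤ} {w : G.ι × K.ι → M} (hw : w ∈ tdeg G K (j + 1)) :
    app M (tmat G K) w ∈ tdeg (M := M) G K j := fun p hp => by
  rw [app_apply]
  refine sum_eq_zero fun q _ => ?_
  by_cases h : tmat G K p q = 0
  · simp [h]
  · have : G.pos q.1 + K.pos q.2 = G.pos p.1 + K.pos p.2 + 1 := (G.tensor K).mat_pos p q h
    rw [hw q (by omega), smul_zero]

theorem app_tmat_app_tmat (f : G.ι × K.ι → M) : app M (tmat G K) (app M (tmat G K) f) = 0 :=
  (G.tensor K).dA_dA M f

/-- Families with values in the given submodules are exact modulo `Y`. -/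
theorem exists_primitive
  (hst : ∀ b' b, ∀ x ∈ Z b, K.mat b' b • x ∈ Z b')
  (hexact : ∀ (J : ℤ) (y : K.ι → M), (∀ b, y b ∈ Z b) →
    (∀ b, (K.pos b : ℤ) ≠ J → y b = 0) → (∀ b, K.dA M y b ∈ Y) →
    ∃ w : K.ι → M, (∀ b, w b ∈ Z b) ∧
      (∀ b, (K.pos b : ℤ) ≠ J + 1 → w b = 0) ∧ ∀ b, K.dA M w b - y b ∈ Y)
  (j : ℤ) : ∀ (i : ℕ) (y : G.ι × K.ι → M), (∀ p, y p ∈ Z p.2) →
    y ∈ tdeg G K j →
    (∀ p, app M (tmat G K) y p ∈ Y) → (∀ p, i ≤ G.pos p.1 → y p = 0) →
    ∃ w : G.ι × K.ι → M, (∀ p, w p ∈ Z p.2) ∧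
      w ∈ tdeg G K (j + 1) ∧
      ∀ p, app M (tmat G K) w p - y p ∈ Y := by
  have hdT : ∀ (w : (G.ι × K.ι) → M) (g : G.ι) (b' : K.ι), app M (tmat G K) w (g, b') =
      (∑ h, G.mat g h • w (h, b')) + G.sgn g • K.dA M (fun b => w (g, b)) b' := by
    intro w g b'
    rw [app_apply, dA_apply, smul_sum]
    rw [Fintype.sum_prod_type]
    simp only [tmat_apply, add_smul, ite_smul, zero_smul, sum_add_distrib,
      sum_ite_eq, mem_univ, if_true, mul_smul, sum_ite_irrel, sum_const_zero]
  have hZd : ∀ (w : (G.ι × K.ι) → M), (∀ p, w p ∈ Z p.2) → ∀ p, app M (tmat G K) w p ∈ Z p.2 := by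
    intro w hw ⟨g, b'⟩
    rw [hdT]
    refine (Z b').add_mem ((Z b').sum_mem fun h _ => (Z b').smul_mem _ (hw (h, b')))
      ((Z b').smul_mem _ ?_)
    rw [dA_apply]
    exact (Z b').sum_mem fun b _ => hst b' b _ (hw (g, b))
  intro i
  induction i with
  | zero =>
    intro y _ _ _ h0
    exact ⟨0, fun p => Submodule.zero_mem _, fun p _ => rfl, fun p => by
      simp [h0 p (Nat.zero_le _)]⟩
  | succ i ih =>
    intro y hyZ hyd hyY hy0
    have hrow : ∀ g, G.pos g = i → ∀ b', K.dA M (fun b => y (g, b)) b' ∈ Y := by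
      intro g hg b'
      have h := hyY (g, b')
      rw [hdT, sum_eq_zero, zero_add] at h
      · have h2 := Y.smul_mem (G.sgn g) h
        rwa [smul_smul, show G.sgn g * G.sgn g = 1 by simp [sgn, ← pow_add, ← two_mul, pow_mul],
          one_smul] at h2
      · intro h' _
        by_cases hm : G.mat g h' = 0
        · simp [hm]
        · rw [hy0 (h', b') (by have := G.mat_pos g h' hm; simp only; omega), smul_zero]
    have hw' : ∀ g, ∃ w : K.ι → M, (∀ b, w b ∈ Z b) ∧
        (∀ b, (K.pos b : ℤ) ≠ j - i + 1 → w b = 0) ∧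
        (G.pos g = i → ∀ b, K.dA M w b - y (g, b) ∈ Y) := by
      intro g
      by_cases hg : G.pos g = i
      · obtain ⟨w, h1, h2, h3⟩ := hexact (j - i) (fun b => y (g, b)) (fun b => hyZ (g, b))
          (fun b hb => hyd (g, b) (by simp only; push_cast; omega)) (hrow g hg)
        exact ⟨w, h1, h2, fun _ => h3⟩
      · exact ⟨0, fun b => Submodule.zero_mem _, fun b _ => rfl, fun h => absurd h hg⟩
    choose w hwZ hwd hwY using hw'
    let W : (G.ι × K.ι) → M := fun p => if G.pos p.1 = i then G.sgn p.1 • w p.1 p.2 else 0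
    have hWZ : ∀ p, W p ∈ Z p.2 := fun p => by
      simp only [W]; split_ifs
      · exact (Z p.2).smul_mem _ (hwZ p.1 p.2)
      · exact Submodule.zero_mem _
    have hWd : W ∈ tdeg G K (j + 1) := fun ⟨g, b⟩ hp => by
      simp only [W]; split_ifs with hg
      · rw [hwd g b (by simp only at hp; push_cast at hp; omega), smul_zero]
      · rfl
    let y' : (G.ι × K.ι) → M := fun p => if G.pos p.1 < i then (y - app M (tmat G K) W) p else 0
    have hdiff : ∀ p, (y - app M (tmat G K) W) p - y' p ∈ Y := by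
      rintro ⟨g, b⟩
      simp only [y']
      split_ifs with hg
      · simp
      · rw [sub_zero, Pi.sub_apply, hdT]
        have hs0 : ∑ h, G.mat g h • W (h, b) = 0 := sum_eq_zero fun h _ => by
          by_cases hm : G.mat g h = 0
          · simp [hm]
          · simp only [W]
            rw [if_neg (by have := G.mat_pos g h hm; omega), smul_zero]
        rw [hs0, zero_add]
        by_cases hgi : G.pos g = i
        · have hfun : (fun b' => W (g, b')) = G.sgn g • w g := funext fun b' => by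
            simp [W, hgi]
          rw [hfun, map_smul, Pi.smul_apply, smul_smul,
            show G.sgn g * G.sgn g = 1 by simp [sgn, ← pow_add, ← two_mul, pow_mul], one_smul,
            ← neg_sub]
          exact Y.neg_mem (hwY g hgi b)
        · have hfun : (fun b' => W (g, b')) = 0 := funext fun b' => by simp [W, hgi]
          rw [hy0 (g, b) (by simp only; omega), hfun, map_zero, Pi.zero_apply, smul_zero,
            sub_zero]
          exact Y.zero_mem
    have hy'Z : ∀ p, y' p ∈ Z p.2 := fun p => by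
      simp only [y']; split_ifs
      · exact (Z p.2).sub_mem (hyZ p) (hZd W hWZ p)
      · exact Submodule.zero_mem _
    have hy'd : y' ∈ tdeg G K j := fun p hp => by
      simp only [y']; split_ifs
      · have := Submodule.sub_mem _ hyd ((app_tmat_mem_deg G K hWd))
        exact this p hp
      · rfl
    have hy'Y : ∀ p, app M (tmat G K) y' p ∈ Y := by
      intro p
      have e : y' = (y - app M (tmat G K) W) - ((y - app M (tmat G K) W) - y') := by abel
      rw [e, map_sub, map_sub, app_tmat_app_tmat, sub_zero, Pi.sub_apply]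
      refine Y.sub_mem (hyY p) ?_
      exact app_mem M _ hdiff p
    obtain ⟨w', h1, h2, h3⟩ := ih y' hy'Z hy'd hy'Y (fun p hp => if_neg (by omega))
    refine ⟨W + w', fun p => (Z p.2).add_mem (hWZ p) (h1 p), Submodule.add_mem _ hWd h2,
      fun p => ?_⟩
    have h4 := Y.sub_mem (h3 p) (hdiff p)
    rw [map_add, Pi.add_apply]
    simp only [Pi.sub_apply] at h4
    have e : app M (tmat G K) W p + app M (tmat G K) w' p - y p =
        app M (tmat G K) w' p - y' p - (y p - app M (tmat G K) W p - y' p) := by abel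
    rw [e]
    exact h4

end Primitive

theorem betti_le_of_retract {G K : FreeCx A} {E : Matrix (G.ι × K.ι) G.ι A}
  {P : Matrix G.ι (G.ι × K.ι) A} (hR : Retract G K E P)
  {X Y : Submodule A M} (hYX : Y ≤ X) (Z : K.ι → Submodule A M)
  (hYZ : ∀ b, Y ≤ Z b) (hZX : ∀ b, Z b ≤ X)
  (hst : ∀ b' b, ∀ x ∈ Z b, K.mat b' b • x ∈ Z b')
  (hexact : ∀ (J : ℤ) (y : K.ι → M), (∀ b, y b ∈ Z b) →
    (∀ b, (K.pos b : ℤ) ≠ J → y b = 0) → (∀ b, K.dA M y b ∈ Y) →
    ∃ w : K.ι → M, (∀ b, w b ∈ Z b) ∧
      (∀ b, (K.pos b : ℤ) ≠ J + 1 → w b = 0) ∧ ∀ b, K.dA M w b - y b ∈ Y)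
  {B : ℕ} (ρ : K.ι → M →ₗ[k] (Fin B → k)) (hρ : ∀ b, ∀ x ∈ X, ρ b x = 0 → x ∈ Z b) (j : ℤ) :
    Module.Finite k ((G.diff M k).H (G.fam k X) (G.fam k Y) j) ∧
      (G.diff M k).betti (G.fam k X) (G.fam k Y) j ≤
        Fintype.card G.ι * Fintype.card K.ι * B := by
  classical
  let fx : Submodule A (G.ι × K.ι → M) := Submodule.pi Set.univ fun _ => X
  let fy : Submodule A (G.ι × K.ι → M) := Submodule.pi Set.univ fun _ => Y
  let Bd : Submodule A (G.ι × K.ι → M) :=
    (fx ⊓ tdeg (M := M) G K (j + 1)).map (app M (tmat G K)) ⊔ (fy ⊓ tdeg (M := M) G K j)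
  let R : (G.ι × K.ι → M) →ₗ[k] (G.ι × K.ι → Fin B → k) :=
    LinearMap.pi fun p => (ρ p.2).comp (LinearMap.proj p)
  let emb : (G.ι → M) →ₗ[k] (G.ι × K.ι → M) := (app M E).restrictScalars k
  have hEd : ∀ {i : ℤ} {f : G.ι → M}, f ∈ (G.diff M k).deg i → app M E f ∈ tdeg G K i := by
    intro i f hf p hp
    rw [app_apply]
    refine sum_eq_zero fun g _ => ?_
    by_cases h : E p g = 0
    · simp [h]
    · rw [hf g (by have := hR.E_pos p g h; omega), smul_zero]
  have hPd : ∀ {i : ℤ} {f : G.ι × K.ι → M}, f ∈ tdeg (M := M) G K i →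
      app M P f ∈ (G.diff M k).deg i := by
    intro i f hf g hg
    rw [app_apply]
    refine sum_eq_zero fun p _ => ?_
    by_cases h : P g p = 0
    · simp [h]
    · rw [hf p (by have := hR.P_pos g p h; omega), smul_zero]
  set N := (Bd.restrictScalars k).map R
  have hbd : ∀ f ∈ (G.diff M k).bdries (G.fam k X) (G.fam k Y) j, emb f ∈ Bd := by
    intro f hf
    obtain ⟨w, ⟨hw, hwd⟩, y, ⟨hy, hyd⟩, e⟩ := (Diff.mem_bdries _).1 hf
    refine Submodule.mem_sup.2 ⟨_, Submodule.mem_map_of_mem
      (show app M E w ∈ fx ⊓ tdeg G K (j + 1) from ⟨fun p _ => app_mem M E hw p, hEd hwd⟩),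
      app M E y, ⟨fun p _ => app_mem M E hy p, hEd hyd⟩, ?_⟩
    rw [← e]
    show _ = app M E (app M G.mat w + y)
    rw [map_add, ← app_mul, ← app_mul, hR.E_comm]
  let Φ : (G.diff M k).H (G.fam k X) (G.fam k Y) j →ₗ[k] (G.ι × K.ι → Fin B → k) ⧸ N :=
    Submodule.mapQ _ _ (R.comp (emb.comp ((G.diff M k).cycles (G.fam k X) (G.fam k Y) j).subtype))
      fun f hf => ⟨_, hbd _ hf, rfl⟩
  have hΦ : Function.Injective Φ := by
    rw [injective_iff_map_eq_zero]
    intro ξ hξ
    obtain ⟨⟨f, hf⟩, rfl⟩ := Submodule.Quotient.mk_surjective _ ξ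
    obtain ⟨hfX, hfd, hfY⟩ := (Diff.mem_cycles _).1 hf
    obtain ⟨β, hβ, hRβ⟩ := (Submodule.Quotient.mk_eq_zero N).1 hξ
    obtain ⟨_, ⟨u, ⟨hu, hud⟩, rfl⟩, v, ⟨hv, hvd⟩, hβe⟩ := Submodule.mem_sup.1 hβ
    replace hu : ∀ p, u p ∈ X := fun p => hu p trivial
    replace hv : ∀ p, v p ∈ Y := fun p => hv p trivial
    have hβX : ∀ p, β p ∈ X := fun p => by
      rw [← hβe]
      exact X.add_mem (app_mem M (tmat G K) hu p) (hYX (hv p))
    have hβd : β ∈ tdeg G K j := hβe ▸ Submodule.add_mem _ (app_tmat_mem_deg G K hud) hvd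
    set y : G.ι × K.ι → M := app M E f - β with hy
    have hyZ : ∀ p, y p ∈ Z p.2 := fun p => by
      refine hρ p.2 _ (X.sub_mem (app_mem M E hfX p) (hβX p)) ?_
      have h : R y p = 0 := by
        have h1 : R β = R (app M E f) := hRβ
        rw [map_sub, h1, sub_self]
        rfl
      exact h
    have hyd : y ∈ tdeg G K j := Submodule.sub_mem _ (hEd hfd) hβd
    have hyY : ∀ p, app M (tmat G K) y p ∈ Y := fun p => by
      rw [map_sub, Pi.sub_apply]
      refine Y.sub_mem ?_ ?_
      · rw [← app_mul, hR.E_comm, app_mul]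
        exact app_mem M E hfY p
      · rw [← hβe, map_add, Pi.add_apply, app_tmat_app_tmat, Pi.zero_apply, zero_add]
        exact app_mem M (tmat G K) hv p
    obtain ⟨i, hi⟩ : ∃ i, ∀ g, G.pos g < i :=
      ⟨Finset.univ.sup G.pos + 1, fun g => Nat.lt_succ_of_le (le_sup (mem_univ g))⟩
    obtain ⟨w, hwZ, hwd, hwY⟩ := exists_primitive G K Z hst hexact j i y hyZ hyd hyY
      fun p hp => absurd (hi p.1) (not_lt.2 hp)
    refine (Diff.mk_eq_zero_iff _ _).2 ((Diff.mem_bdries _).2
      ⟨app M P (u + w), ⟨fun g => app_mem M P (fun p => X.add_mem (hu p) (hZX _ (hwZ p))) g,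
        hPd (Submodule.add_mem _ hud hwd)⟩,
      app M P (v - (app M (tmat G K) w - y)),
        ⟨fun g => app_mem M P (fun p => Y.sub_mem (hv p) (hwY p)) g,
        hPd (Submodule.sub_mem _ hvd (Submodule.sub_mem _ (app_tmat_mem_deg G K hwd) hyd))⟩, ?_⟩)
    show app M G.mat (app M P (u + w)) + _ = f
    have hPE : app M P (app M E f) = f := by rw [← app_mul, hR.P_E, app_one]
    rw [← app_mul, hR.P_comm, app_mul, ← map_add]
    conv_rhs => rw [← hPE]
    congr 1
    rw [map_add, hy, ← hβe]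
    abel
  refine ⟨Module.Finite.of_injective Φ hΦ, ?_⟩
  calc (G.diff M k).betti (G.fam k X) (G.fam k Y) j
      ≤ Module.finrank k ((G.ι × K.ι → Fin B → k) ⧸ N) :=
        LinearMap.finrank_le_finrank_of_injective hΦ
    _ ≤ Module.finrank k (G.ι × K.ι → Fin B → k) := Submodule.finrank_quotient_le N
    _ = Fintype.card G.ι * Fintype.card K.ι * B := by
        rw [Module.finrank_pi_fintype]
        simp [Fintype.card_prod]

/-- Homology of a pair is small if the elements of `zs` are null-homotopic on `G` and the Koszul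
complex is exact modulo `Y` on submodules of codimension at most `B`. -/
theorem fam_betti_le_of_high (G : FreeCx A) (zs : List A)
  (hs : ∀ z ∈ zs, ∃ s : Matrix G.ι G.ι A, G.mat * s + s * G.mat = z • (1 : Matrix G.ι G.ι A))
  {X Y : Submodule A M} (hYX : Y ≤ X) (Z : (koszul zs).ι → Submodule A M)
  (hYZ : ∀ b, Y ≤ Z b) (hZX : ∀ b, Z b ≤ X)
  (hst : ∀ b' b, ∀ x ∈ Z b, (koszul zs).mat b' b • x ∈ Z b')
  (hexact : ∀ (J : ℤ) (y : (koszul zs).ι → M), (∀ b, y b ∈ Z b) →
    (∀ b, ((koszul zs).pos b : ℤ) ≠ J → y b = 0) → (∀ b, (koszul zs).dA M y b ∈ Y) →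
    ∃ w : (koszul zs).ι → M, (∀ b, w b ∈ Z b) ∧
      (∀ b, ((koszul zs).pos b : ℤ) ≠ J + 1 → w b = 0) ∧ ∀ b, (koszul zs).dA M w b - y b ∈ Y)
  {B : ℕ} (hρ : ∀ b, ∃ r ≤ B, ∃ ρ : M →ₗ[k] (Fin r → k), ∀ x ∈ X, ρ x = 0 → x ∈ Z b) (j : ℤ) :
    Module.Finite k ((G.diff M k).H (G.fam k X) (G.fam k Y) j) ∧
      (G.diff M k).betti (G.fam k X) (G.fam k Y) j ≤
        Fintype.card G.ι * Fintype.card (koszul zs).ι * B := by
  obtain ⟨E, P, hR⟩ := exists_retract G zs hs
  have hρ' : ∀ b, ∃ ρ : M →ₗ[k] (Fin B → k), ∀ x ∈ X, ρ x = 0 → x ∈ Z b := by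
    intro b
    obtain ⟨r, hr, ρ, hρb⟩ := hρ b
    refine ⟨(Function.ExtendByZero.linearMap k (Fin.castLE hr)).comp ρ, fun x hx h => hρb x hx ?_⟩
    funext a
    have := congrFun h (Fin.castLE hr a)
    simpa [(Fin.castLE_injective hr).extend_apply] using this
  choose ρ hρk using hρ'
  exact betti_le_of_retract hR hYX Z hYZ hZX hst hexact ρ hρk j

end Pairs

end Vale.Agent.P202.FreeCx
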