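import Vale.Agent.P202.NC.Window.HighDefs
import Vale.Agent.P202.NC.Band.Lead

/-!
# P202, general source ring: the low degrees modulo a power series are small
-/

noncomputable section

namespace Vale.Agent.P202.NC.Low

open Segre Window

variable {k : Type*} [Field k] {n : ℕ}

variable (n) in
/-- Monomials of the Segre module in degrees `1, ..., M`. -/
abbrev Idx (K M : ℕ) : Type := Σ t : ↥(Finset.Icc (1 : ℤ) M), ↥(boxAt n K t.1)

theorem card_idx (K M : ℕ) :
    (Fintype.card (Idx n K M) : ℤ) = ∑ t ∈ Finset.Icc (1 : ℤ) M, pFun n K t := by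
  rw [Fintype.card_sigma, Nat.cast_sum, ← Finset.sum_coe_sort (Finset.Icc (1 : ℤ) M)]
  refine Finset.sum_congr rfl fun t _ => ?_
  rw [Fintype.card_coe, card_boxAt K (Finset.mem_Icc.1 t.2).1]

theorem card_idx_diff_le (K : ℕ) {M N o : ℕ} (hM : M ≤ N + o) (hMN : N ≤ M) :
    Fintype.card (Idx n K M) ≤ Fintype.card (Idx n K N) + o * (M + (n + 1) * K) ^ n := by
  have hsplit : ∑ t ∈ Finset.Icc (1 : ℤ) M, pFun n K t ≤
      ∑ t ∈ Finset.Icc (1 : ℤ) N, pFun n K t + o * ((M + (n + 1) * K : ℕ) : ℤ) ^ n := by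
    rw [← Finset.sum_sdiff (show Finset.Icc (1 : ℤ) (N : ℤ) ⊆ Finset.Icc (1 : ℤ) M from
      Finset.Icc_subset_Icc_right (by omega)), add_comm]
    refine add_le_add le_rfl ?_
    refine (Finset.sum_le_card_nsmul _ _ (((M + (n + 1) * K : ℕ) : ℤ) ^ n) fun t ht => ?_).trans ?_
    · simp only [Finset.mem_sdiff, Finset.mem_Icc] at ht
      rw [pFun]
      refine (Finset.prod_le_prod (g := fun _ => ((M + (n + 1) * K : ℕ) : ℤ))
        (fun a _ => add_nonneg (by linarith [ht.1.1]) (by positivity)) fun a _ => ?_).trans (by simp)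
      have h1 : (a.val : ℤ) * K ≤ (n : ℤ) * K :=
        mul_le_mul_of_nonneg_right (by exact_mod_cast a.2.le) (by positivity)
      push_cast
      nlinarith [ht.1.2]
    · rw [nsmul_eq_mul]
      refine mul_le_mul_of_nonneg_right ?_ (by positivity)
      rw [Finset.card_sdiff_of_subset (Finset.Icc_subset_Icc_right (by omega)), Int.card_Icc,
        Int.card_Icc]
      omega
  rw [← card_idx, ← card_idx] at hsplit
  exact_mod_cast hsplit

/-- The coefficients in degree `t` of a vector. -/
def polyAt (K M : ℕ) (t : ↥(Finset.Icc (1 : ℤ) M)) : (Idx n K M → k) →ₗ[k] Coef k n where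
  toFun v := ∑ α : ↥(boxAt n K t.1), AddMonoidAlgebra.single α.1 (v (Sigma.mk t α))
  map_add' v w := by
    simp only [Pi.add_apply, AddMonoidAlgebra.single_add, Finset.sum_add_distrib]
  map_smul' r v := by
    simp only [Pi.smul_apply, RingHom.id_apply, Finset.smul_sum, AddMonoidAlgebra.smul_single]

variable (k n) in
/-- The element with the given coefficients. -/
def emb (K M : ℕ) : (Idx n K M → k) →ₗ[k] Lam k n where
  toFun v := ∑ t : ↥(Finset.Icc (1 : ℤ) M), HahnSeries.single t.1 (polyAt K M t v)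
  map_add' v w := by
    rw [← Finset.sum_add_distrib]
    exact Finset.sum_congr rfl fun t _ => by rw [map_add, HahnSeries.single_add]
  map_smul' r v := by
    rw [RingHom.id_apply, Finset.smul_sum]
    refine Finset.sum_congr rfl fun t _ => ?_
    refine HahnSeries.ext (funext fun s => ?_)
    rw [HahnSeries.coeff_smul, map_smul]
    by_cases hs : s = t.1
    · simp only [hs, HahnSeries.coeff_single_same]
    · simp only [HahnSeries.coeff_single_of_ne hs, smul_zero]

variable (k n) in
/-- Reading off the coefficients. -/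
def read (K M : ℕ) : Lam k n →ₗ[k] (Idx n K M → k) where
  toFun f p := (f.coeff p.1.1).coeff p.2.1
  map_add' f g := by funext p; simp
  map_smul' r f := by funext p; simp

theorem read_emb {K M : ℕ} (v : Idx n K M → k) : read k n K M (emb k n K M v) = v := by
  classical
  funext ⟨t, α⟩
  show ((∑ s : ↥(Finset.Icc (1 : ℤ) M), HahnSeries.single s.1 (polyAt K M s v)).coeff t.1).coeff
    α.1 = _
  rw [HahnSeries.coeff_sum, Finset.sum_eq_single t]
  · rw [HahnSeries.coeff_single_same]
    simp only [polyAt, LinearMap.coe_mk, AddHom.coe_mk, AddMonoidAlgebra.coeff_sum,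
      Finsupp.finsetSum_apply, AddMonoidAlgebra.coeff_single]
    rw [Finset.sum_eq_single α]
    · simp
    · intro β _ hβ
      rw [Finsupp.single_apply, if_neg fun h => hβ (Subtype.ext h)]
    · simp
  · intro s _ hs
    rw [HahnSeries.coeff_single_of_ne fun h => hs (Subtype.ext h.symm)]
  · simp

theorem coeff_emb_eq_zero {K M : ℕ} (v : Idx n K M → k) {s : ℤ} (hs : s < 1 ∨ (M : ℤ) < s) :
    (emb k n K M v).coeff s = 0 := by
  show (∑ t : ↥(Finset.Icc (1 : ℤ) M), HahnSeries.single t.1 (polyAt K M t v)).coeff s = 0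
  rw [HahnSeries.coeff_sum]
  refine Finset.sum_eq_zero fun t _ => HahnSeries.coeff_single_of_ne ?_
  have := Finset.mem_Icc.1 t.2
  omega

theorem emb_mem {K M : ℕ} (v : Idx n K M → k) : emb k n K M v ∈ comp k n K none := by
  show ∑ t : ↥(Finset.Icc (1 : ℤ) M), HahnSeries.single t.1 (polyAt K M t v) ∈ _
  refine Submodule.sum_mem _ fun t _ => ?_
  intro s β hne
  by_cases hs : s = t.1
  · subst hs
    rw [HahnSeries.coeff_single_same] at hne
    simp only [polyAt, LinearMap.coe_mk, AddHom.coe_mk, AddMonoidAlgebra.coeff_sum,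
      Finsupp.finsetSum_apply] at hne
    obtain ⟨α, -, hα⟩ := Finset.exists_ne_zero_of_sum_ne_zero hne
    rw [AddMonoidAlgebra.coeff_single, Finsupp.single_apply] at hα
    split_ifs at hα with hαβ
    · exact hαβ ▸ mem_boxAt.1 α.2
    · exact absurd rfl hα
  · simp [HahnSeries.coeff_single_of_ne hs] at hne

variable (k n) in
/-- Multiplying by `c` and reading off. -/
def mulRead (c : Pw k n) (K M L : ℕ) : (Idx n K L → k) →ₗ[k] (Idx n K M → k) :=
  (read k n K M).comp
    { toFun := fun v => c • emb k n K L v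
      map_add' := fun v w => by rw [map_add, smul_add]
      map_smul' := fun r v => by rw [map_smul, RingHom.id_apply, smul_comm] }

theorem mulRead_injective {c : Pw k n} (hc : c ≠ 0) {K M L o : ℕ}
    (ho : (segreHom k n c).order = (o : ℤ)) (hL : L + o ≤ M ∨ L = 0) :
    Function.Injective (mulRead k n c K M L) := by
  rw [injective_iff_map_eq_zero]
  intro v hv
  by_contra hne
  set F := emb k n K L v with hF
  have hF0 : F ≠ 0 := fun h => hne (by rw [← read_emb (K := K) (M := L) v, ← hF, h, map_zero])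
  have : NoZeroDivisors (Coef k n) := inferInstance
  have hprod := mul_ne_zero (Band.segreHom_ne_zero hc) hF0
  have hord : (segreHom k n c * F).order = (o : ℤ) + F.order := by
    rw [HahnSeries.order_mul (Band.segreHom_ne_zero hc) hF0, ho]
  have hFN : F.order ≤ (L : ℤ) ∧ 1 ≤ F.order := by
    have h0 := HahnSeries.coeff_order_eq_zero.not.2 hF0
    by_contra hcon
    exact h0 (coeff_emb_eq_zero v (by omega))
  obtain ⟨β, hβ⟩ : ∃ β, ((segreHom k n c * F).coeff ((o : ℤ) + F.order)).coeff β ≠ 0 := by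
    by_contra hall
    simp only [not_exists, not_not] at hall
    refine HahnSeries.coeff_order_eq_zero.not.2 hprod ?_
    rw [hord]
    exact AddMonoidAlgebra.ext (Finsupp.ext hall)
  have hmem : c • F ∈ comp k n K none := Submodule.smul_mem _ _ (emb_mem v)
  have hbox : β ∈ boxAt n K ((o : ℤ) + F.order) := mem_boxAt.2 (hmem _ β hβ)
  have := congrFun hv ⟨⟨(o : ℤ) + F.order, Finset.mem_Icc.2 ⟨by omega, by omega⟩⟩, ⟨β, hbox⟩⟩
  exact hβ this

/-- Without factors every element is a multiple of `c`. -/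
theorem mem_cU_of_eq_zero (hn : n = 0) {c : Pw k n} (hc : c ≠ 0) (K : ℕ) (u : Lam k n) :
    u ∈ cU K c := by
  have hunit : IsUnit (segreHom k n c) := by
    rw [HahnSeries.isUnit_iff]
    set x := (segreHom k n c).leadingCoeff
    have hx : x ≠ 0 := HahnSeries.leadingCoeff_ne_zero.2 (Band.segreHom_ne_zero hc)
    have : Subsingleton (Fin n → ℤ) := by subst hn; infer_instance
    have hx0 : x = AddMonoidAlgebra.single 0 (x.coeff 0) := by
      refine AddMonoidAlgebra.ext (Finsupp.ext fun α => ?_)
      rw [Subsingleton.elim α 0]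
      simp
    have hne : x.coeff 0 ≠ 0 := fun h => hx (by rw [hx0, h]; simp)
    refine isUnit_iff_exists_inv.2 ⟨AddMonoidAlgebra.single 0 (x.coeff 0)⁻¹, ?_⟩
    rw [hx0, AddMonoidAlgebra.single_mul_single, add_zero]
    simp [hne, AddMonoidAlgebra.one_def]
  obtain ⟨w, hw⟩ := hunit.exists_right_inv
  refine ⟨w * u, fun t α _ a => absurd a.isLt (by omega), ?_⟩
  show segreHom k n c * (w * u) = u
  rw [← mul_assoc, hw, one_mul]

end Low

open Segre Window in
/-- The low degrees modulo `c` are small. -/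
theorem lowBound {k : Type*} [Field k] {n : ℕ} {c : Pw k n} (hc : c ≠ 0) : LowBound c := by
  classical
  rcases Nat.eq_zero_or_pos n with hn | hn
  · exact ⟨0, fun K _ N => ⟨0, 0, Nat.zero_le _,
      fun u _ _ => Submodule.mem_sup_right (Low.mem_cU_of_eq_zero hn hc K u)⟩⟩
  obtain ⟨o, ho⟩ : ∃ o : ℕ, (segreHom k n c).order = (o : ℤ) := by
    refine ⟨(segreHom k n c).order.toNat, (Int.toNat_of_nonneg ?_).symm⟩
    by_contra hneg
    exact HahnSeries.coeff_order_eq_zero.not.2 (Band.segreHom_ne_zero hc)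
      (segreHom_coeff_neg k n c (not_le.1 hneg))
  refine ⟨o, fun K hK N => ?_⟩
  set M := N - 1
  set L := M - o
  let T := Low.mulRead k n c K M L
  have hinj : Function.Injective T := Low.mulRead_injective hc ho (by omega)
  let W := LinearMap.range T
  refine ⟨Module.finrank k ((Low.Idx n K M → k) ⧸ W),
    ((Module.finBasis k ((Low.Idx n K M → k) ⧸ W)).equivFun.toLinearMap.comp W.mkQ).comp
      (Low.read k n K M), ?_, fun u hu hρ => ?_⟩
  · have h1 := Submodule.finrank_quotient_add_finrank W
    have h2 : Module.finrank k W = Fintype.card (Low.Idx n K L) := by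
      rw [LinearMap.finrank_range_of_inj hinj, Module.finrank_fintype_fun_eq_card]
    rw [h2, Module.finrank_fintype_fun_eq_card] at h1
    have h3 := Low.card_idx_diff_le (n := n) K (M := M) (N := L) (o := o) (by omega) (by omega)
    have h4 : o * (M + (n + 1) * K) ^ n ≤ o * (N + (n + 1) * K) ^ n :=
      Nat.mul_le_mul_left _ (Nat.pow_le_pow_left (by omega) n)
    omega
  · obtain ⟨v, hv⟩ : Low.read k n K M u ∈ W := by
      rw [← Submodule.Quotient.mk_eq_zero]
      exact (Module.finBasis k ((Low.Idx n K M → k) ⧸ W)).equivFun.map_eq_zero_iff.1 hρ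
    have hw := Low.emb_mem (k := k) (K := K) (M := L) v
    refine Submodule.mem_sup.2 ⟨u - c • Low.emb k n K L v,
      ⟨Submodule.sub_mem _ hu (Submodule.smul_mem _ _ hw), fun t ht => ?_⟩,
      c • Low.emb k n K L v, ⟨_, hw, rfl⟩, sub_add_cancel _ _⟩
    by_contra hne
    obtain ⟨β, hβ⟩ : ∃ β, ((u - c • Low.emb k n K L v).coeff t).coeff β ≠ 0 := by
      by_contra hall
      simp only [not_exists, not_not] at hall
      exact hne (AddMonoidAlgebra.ext (Finsupp.ext hall))
    have hal := Submodule.sub_mem _ hu (Submodule.smul_mem _ c hw) t β hβ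
    have h1 := hal ⟨0, hn⟩
    simp only [shift, CharP.cast_eq_zero, zero_mul, zero_sub] at h1
    have := congrFun hv ⟨⟨t, Finset.mem_Icc.2 ⟨by omega, by omega⟩⟩, ⟨β, mem_boxAt.2 hal⟩⟩
    refine hβ ?_
    rw [HahnSeries.coeff_sub, AddMonoidAlgebra.coeff_sub, Finsupp.sub_apply, sub_eq_zero]
    exact this.symm

end Vale.Agent.P202.NC
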