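import Vale.Agent.P202.NC.Window.Sum
import Vale.Agent.P202.NC.Window.High
import Vale.Agent.P202.NC.Window.KosEmb
import Vale.Agent.P202.NC.Window.Low
import Vale.Agent.P202.NC.Band
import Vale.Agent.P202.NC.Comb
import Vale.Agent.P202.NC.Amplify
import Vale.Agent.P202.CoreBound

/-!
# P202, general source ring: the weak bound for bounded families of data
-/

noncomputable section

namespace Vale.Agent.P202

theorem FreeCx.card_koszul {A : Type*} [CommRing A] : ∀ zs : List A,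
    Fintype.card (FreeCx.koszul zs).ι = 2 ^ zs.length
  | [] => rfl
  | z :: zs => by
    show Fintype.card ((FreeCx.koszul zs).ι × Fin 2) = _
    rw [Fintype.card_prod, Fintype.card_fin, FreeCx.card_koszul zs, List.length_cons, pow_succ]

namespace NC

open Segre Window Finset

universe u

variable {k : Type u} [Field k] {n : ℕ}

theorem highQ_anti (K : ℕ) (c : Pw k n) {N N' : ℤ} (h : N' ≤ N) : highQ K c N ≤ highQ K c N' :=
  sup_le_sup_right (fun _ hu => ⟨hu.1, fun t ht => hu.2 t (lt_of_lt_of_le ht h)⟩) _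

theorem cU_le (K : ℕ) (c : Pw k n) : cU K c ≤ comp k n K none := by
  rintro _ ⟨w, hw, rfl⟩
  exact Submodule.smul_mem _ _ hw

namespace Datum

variable (X : Datum k (n + 1))

/-- The homology on the Segre module below the top degree is small. -/
theorem segre_betti_le (hn : 1 ≤ n) {K : ℕ} (hX : X.IsGood K) {E : ℕ}
    (hkill : ∀ i, X.G.Kills (PS k (n + 1)) (MvPowerSeries.X i ^ E)) {o : ℕ}
    (ho : (segreHom k n (X.c ^ (n + 2))).order = (o : ℤ)) {B : ℕ}
    (hρ : ∃ (r : ℕ) (ρ : Lam k n →ₗ[k] (Fin r → k)), r ≤ B ∧ ∀ u ∈ comp k n K none, ρ u = 0 →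
      u ∈ highQ K (X.c ^ (n + 2)) (((n + 2) * (E * (n + 1 + X.m + 1)) + 1 + o : ℕ) : ℤ))
    {U : Type*} [AddCommGroup U] [Module (Pw k n) U] [Module k U] [IsScalarTower k (Pw k n) U]
    {φ : U →ₗ[Pw k n] Lam k n} (hφ : AugHyp (comp k n K) φ) {j : ℤ} (hj : j < X.m) :
    (X.G.diff U k).betti ⊤ ⊥ j ≤ Fintype.card X.G.ι * 2 ^ (n + 1) * B := by
  set Q := E * (n + 1 + X.m + 1)
  set c' := X.c ^ (n + 2) with hc'
  set N : ℕ := (n + 2) * Q + 1 + o with hN
  obtain ⟨r, ρ, hr, hρ⟩ := hρ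
  have hc : c' ≠ 0 := pow_ne_zero _ X.c_ne
  have hs : ∀ z ∈ powList k n Q, ∃ s : Matrix X.G.ι X.G.ι (Pw k n),
      X.G.mat * s + s * X.G.mat = z • (1 : Matrix X.G.ι X.G.ι (Pw k n)) := by
    intro z hz
    obtain ⟨i, rfl⟩ := List.mem_ofFn.1 hz
    obtain ⟨s, hs⟩ := FreeCx.exists_homotopy _ (hkill i) X.lengthLE
    exact ⟨s, by rw [hs, ← pow_mul]⟩
  obtain ⟨hfin, hle⟩ := X.G.fam_betti_le_of_high (k := k) (powList k n Q) hs
    (X := comp k n K none) (Y := cU K c') (cU_le K c')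
    (fun b => highQ K c' ((N : ℤ) - ((Q * (powKos k n Q).pos b : ℕ) : ℤ)))
    (fun b => le_sup_right) (fun b => sup_le (fun u hu => hu.1) (cU_le K c'))
    (fun _ _ x hx => smul_mem_highQ K c' hx)
    (fun J y h1 h2 h3 => highQ_exact hn hc ho (by rw [hN]; push_cast; omega) J y h1 h2 h3)
    (B := B) (fun b => ⟨r, hr, ρ, fun u hu h0 => highQ_anti K c' (by omega) (hρ u hu h0)⟩) j
  refine (X.betti_le_quot hX hφ hj).trans (hle.trans (le_of_eq ?_))
  rw [FreeCx.card_koszul, powList, List.length_ofFn]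

theorem sum_frank {K : ℕ} (hX : X.IsGood K) :
    ∑ i ∈ range (n + 2), (-1 : ℤ) ^ i * (X.frank i : ℤ) = 0 := by
  classical
  have h0 := Diag.euler_zero (by omega) X.G hX.finite
  rw [← sum_fiberwise_of_maps_to (t := range (n + 2)) (g := X.lev)
    (fun g _ => mem_range.2 (Nat.lt_succ_of_le (X.lev_le g))),
    sum_congr rfl fun i _ => hX.euler i] at h0
  have hm : ∑ i ∈ range (n + 2), (-1 : ℤ) ^ (i + X.m) * (X.frank i : ℤ) =
      (-1) ^ X.m * ∑ i ∈ range (n + 2), (-1 : ℤ) ^ i * (X.frank i : ℤ) := by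
    rw [mul_sum]
    exact sum_congr rfl fun i _ => by rw [pow_add]; ring
  rw [hm] at h0
  exact (mul_eq_zero.1 h0).resolve_left (pow_ne_zero _ (by norm_num))

theorem winSum_ge {K : ℕ} (hX : X.IsGood K) {A : ℤ}
    (hA : ∀ i ∈ Icc 1 (n + 1), 0 ≤ (-1) ^ i * (sFun n K (i - 1) - A)) :
    -(A * (X.frank 0 : ℤ)) ≤ X.winSum K := by
  have he := X.sum_frank hX
  rw [range_eq_Ico, ← sum_Ico_consecutive _ (show 0 ≤ 1 by omega) (show 1 ≤ n + 2 by omega),
    show Ico 0 1 = ({0} : Finset ℕ) from rfl, sum_singleton, pow_zero, one_mul,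
    show Ico 1 (n + 2) = Icc 1 (n + 1) from by
      ext i; simp only [mem_Ico, mem_Icc]; omega] at he
  have hsplit : X.winSum K =
      ∑ i ∈ Icc 1 (n + 1), (X.frank i : ℤ) * ((-1) ^ i * (sFun n K (i - 1) - A)) +
        A * ∑ i ∈ Icc 1 (n + 1), (-1 : ℤ) ^ i * (X.frank i : ℤ) := by
    rw [winSum, mul_sum, ← sum_add_distrib]
    exact sum_congr rfl fun i _ => by ring
  have hnonneg : 0 ≤ ∑ i ∈ Icc 1 (n + 1),
      (X.frank i : ℤ) * ((-1) ^ i * (sFun n K (i - 1) - A)) :=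
    sum_nonneg fun i hi => mul_nonneg (Int.natCast_nonneg _) (hA i hi)
  rw [show ∑ i ∈ Icc 1 (n + 1), (-1 : ℤ) ^ i * (X.frank i : ℤ) = -(X.frank 0 : ℤ) by linarith]
    at hsplit
  linarith

end Datum

theorem pow_succ_le_add_mul (K C : ℕ) (hK : 1 ≤ K) (n : ℕ) :
    ((K + C : ℕ) : ℤ) ^ (n + 1) ≤
      (K : ℤ) ^ (n + 1) + ((n + 1) * C * (1 + C) ^ n : ℕ) * (K : ℤ) ^ n := by
  have hle : K + C ≤ (1 + C) * K := by
    have := Nat.le_mul_of_pos_right C (show 0 < K by omega)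
    rw [add_mul, one_mul]
    omega
  have key : ∀ m, (K + C) ^ (m + 1) ≤ K ^ (m + 1) + (m + 1) * C * (K + C) ^ m := by
    intro m
    induction m with
    | zero => simp
    | succ m ih =>
      calc (K + C) ^ (m + 1 + 1) = (K + C) * (K + C) ^ (m + 1) := by ring
        _ ≤ K * (K ^ (m + 1) + (m + 1) * C * (K + C) ^ m) + C * (K + C) ^ (m + 1) := by
            rw [add_mul]
            exact Nat.add_le_add_right (Nat.mul_le_mul_left K ih) _
        _ ≤ K ^ (m + 1 + 1) + (K + C) * ((m + 1) * C * (K + C) ^ m) + C * (K + C) ^ (m + 1) := by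
            have := Nat.mul_le_mul_right ((m + 1) * C * (K + C) ^ m) (Nat.le_add_right K C)
            rw [mul_add, ← pow_succ']
            omega
        _ = K ^ (m + 1 + 1) + (m + 1 + 1) * C * (K + C) ^ (m + 1) := by ring
  have h2 : (n + 1) * C * (K + C) ^ n ≤ (n + 1) * C * (1 + C) ^ n * K ^ n := by
    rw [mul_assoc ((n + 1) * C), ← mul_pow]
    exact Nat.mul_le_mul_left _ (Nat.pow_le_pow_left hle n)
  exact_mod_cast (key n).trans (Nat.add_le_add_left h2 _)

/-- THE WEAK BOUND. -/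
theorem weak (hn : 3 ≤ n) {E : ℤ} {r : ℕ} (h : Bounded k (n + 1) E r) : (r : ℤ) ≤ 3 * n * E := by
  classical
  have hE := h.nonneg
  obtain ⟨c, m, C, hQ⟩ := h
  have hc0 : c ≠ 0 := by
    obtain ⟨K, -, -, X, rfl, -⟩ := hQ 0
    exact X.c_ne
  obtain ⟨CB, hCB⟩ := bandBound hc0
  obtain ⟨o, ho⟩ := exists_ord hc0
  have hc'0 : c ^ (n + 2) ≠ 0 := pow_ne_zero _ hc0
  obtain ⟨o', ho'⟩ := exists_ord hc'0
  obtain ⟨CL, hCL⟩ := lowBound hc'0
  set a : ℕ := (n + 2) * (C * (n + 1 + m + 1)) + 1 + o' + (n + 1) with ha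
  -- the error constant
  set W : ℕ := C * o * (n + 1) ^ n +
    (n + 1 + m) * (C * 2 ^ (n + 1) * (CL * a ^ n) + C * CB) with hW
  set A : ℤ := 3 * n * ((n.factorial : ℤ) * E * ((n + 1) * C * (1 + C) ^ n : ℕ) + W) with hA
  by_contra hlt
  obtain ⟨K, hQK, hK, X, hXc, hXm, hgood, hcard, hfree, hr, hchi, hkill⟩ := hQ (A.toNat + 1)
  subst hXc hXm
  have hband : X.BandAt K CB := fun i hi j => hCB K hK i hi j
  have hfinU : X.G.FiniteHom (comp k n K none) k :=
    Window.finiteHom_aug (by omega) hgood.finite X.lengthLE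
  set N := (n + 2) * (C * K * (n + 1 + X.m + 1)) + 1 + o' with hN
  have hNK : N + (n + 1) * K ≤ a * K := by
    have h1 : 1 + o' ≤ (1 + o') * K := Nat.le_mul_of_pos_right _ hK
    calc N + (n + 1) * K = (n + 2) * (C * (n + 1 + X.m + 1)) * K + (1 + o') + (n + 1) * K := by
          rw [hN]; ring
      _ ≤ (n + 2) * (C * (n + 1 + X.m + 1)) * K + (1 + o') * K + (n + 1) * K := by omega
      _ = a * K := by rw [ha]; ring
  obtain ⟨rk, ρ, hrk, hρ⟩ := hCL K hK N
  have hP : ∀ j : ℤ, j < X.m → (X.G.diff (↥(comp k n K none)) k).betti ⊤ ⊥ j ≤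
      C * 2 ^ (n + 1) * (CL * a ^ n) * K ^ n := fun j hj => by
    refine (X.segre_betti_le (by omega) hgood hkill ho' (B := CL * (a * K) ^ n)
      ⟨rk, ρ, hrk.trans (Nat.mul_le_mul_left _ (Nat.pow_le_pow_left hNK n)), hρ⟩
      Window.augHyp hj).trans ?_
    rw [show C * 2 ^ (n + 1) * (CL * a ^ n) * K ^ n = C * 2 ^ (n + 1) * (CL * (a * K) ^ n) by ring_nf]
    exact Nat.mul_le_mul_right _ (Nat.mul_le_mul_right _ hcard)
  have hwin := X.window_le (by omega) hK hgood hband ho Window.augHyp hfinU hP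
  obtain ⟨A₀, hA₀, hmain⟩ := exists_alternation_strong n K (by omega) hK
  have hwS := X.winSum_ge hgood hA₀
  have hps : mainSum n K ≤ partSum n K (K - o) + ((o * ((n + 1) * K) ^ n : ℕ) : ℤ) := by
    have := mainSum_le_partSum (n := n) K o hK
    push_cast at this ⊢
    exact this
  -- the Euler characteristic
  have := Segre.comp_none_finite (k := k) (n := n) K (by omega)
  have hfin := (Diag.chi_diag X.G hgood.finite (Segre.comp k n K none)).2.1
  have hkos : (FreeCx.koszul (Diag.vars k (n + 1))).chi (Segre.comp k n K none) k =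
      (n.factorial : ℤ) := by
    refine Segre.koszul_chi K (by omega) _ ?_ (by simp [Diag.vars]) hfin
    intro a ha
    obtain ⟨i, rfl⟩ := List.mem_ofFn.1 ha
    exact Segre.Lin.X i
  rw [Diag.chi_eq_mul X.G hgood.finite (Segre.comp k n K none) hkos] at hwin
  -- assemble
  have hf0 : (X.frank 0 : ℤ) ≤ C := by
    have : X.frank 0 ≤ Fintype.card X.free := Finset.card_le_univ _
    exact_mod_cast this.trans hfree
  have hr' : (r : ℤ) ≤ X.frank 0 := by exact_mod_cast hr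
  have hχ : (-1) ^ X.m * (X.G.chi (PS k (n + 1)) k * (n.factorial : ℤ)) ≤
      (n.factorial : ℤ) * E * ((K + C : ℕ) : ℤ) ^ (n + 1) := by
    refine (le_abs_self _).trans ?_
    rw [abs_mul, abs_pow, abs_neg, abs_one, one_pow, one_mul, abs_mul, Nat.abs_cast, mul_comm,
      mul_assoc (n.factorial : ℤ)]
    exact mul_le_mul_of_nonneg_left hchi (by positivity)
  set T : ℤ := (K : ℤ) ^ n with hT
  have hT0 : 0 < T := pow_pos (by omega) n
  have herr : ((n + 1 + X.m : ℕ) : ℤ) *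
      (C * 2 ^ (n + 1) * (CL * a ^ n) * K ^ n + Fintype.card X.G.ι * (CB * K ^ n) : ℕ) +
      (X.frank 0 : ℤ) * ((o * ((n + 1) * K) ^ n : ℕ) : ℤ) ≤ (W : ℤ) * T := by
    have h1 : (X.frank 0 : ℤ) * ((o * ((n + 1) * K) ^ n : ℕ) : ℤ) ≤
        (C : ℤ) * ((o * ((n + 1) * K) ^ n : ℕ) : ℤ) :=
      mul_le_mul_of_nonneg_right hf0 (by positivity)
    have h2 : ((n + 1 + X.m) * (C * 2 ^ (n + 1) * (CL * a ^ n) * K ^ n +
        Fintype.card X.G.ι * (CB * K ^ n)) : ℕ) ≤
        (n + 1 + X.m) * (C * 2 ^ (n + 1) * (CL * a ^ n) * K ^ n + C * (CB * K ^ n)) :=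
      Nat.mul_le_mul_left _ (Nat.add_le_add_left (Nat.mul_le_mul_right _ hcard) _)
    have h3 : (((n + 1 + X.m) * (C * 2 ^ (n + 1) * (CL * a ^ n) * K ^ n +
        Fintype.card X.G.ι * (CB * K ^ n)) : ℕ) : ℤ) ≤
        (((n + 1 + X.m) * (C * 2 ^ (n + 1) * (CL * a ^ n) * K ^ n + C * (CB * K ^ n)) : ℕ) : ℤ) := by
      exact_mod_cast h2
    rw [← Nat.cast_mul]
    refine (add_le_add h3 h1).trans (le_of_eq ?_)
    rw [hW, hT]
    push_cast
    rw [mul_pow]
    ring
  have hprod := mul_le_mul_of_nonneg_left hps (Int.natCast_nonneg (X.frank 0))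
  have hKC := mul_le_mul_of_nonneg_left (pow_succ_le_add_mul K C hK n)
    (show (0 : ℤ) ≤ (n.factorial : ℤ) * E by positivity)
  rw [mul_add] at hprod hKC
  have hm0 := mul_le_mul_of_nonneg_left hmain (Int.natCast_nonneg (X.frank 0))
  have hmul : (X.frank 0 : ℤ) * (mainSum n K - A₀) ≤ (n.factorial : ℤ) * E * (K : ℤ) ^ (n + 1) +
      ((n.factorial : ℤ) * E * ((n + 1) * C * (1 + C) ^ n : ℕ) + W) * T := by
    rw [mul_sub, add_mul, mul_assoc ((n.factorial : ℤ) * E) _ T]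
    linarith
  have hfinal : ((X.frank 0 : ℤ) - 3 * n * E) * ((n.factorial : ℤ) * (K : ℤ) ^ (n + 1)) ≤ A * T := by
    have := mul_le_mul_of_nonneg_left hmul (show (0 : ℤ) ≤ 3 * n by positivity)
    rw [hA]
    linear_combination hm0 + this
  have hone : (1 : ℤ) ≤ (X.frank 0 : ℤ) - 3 * n * E := by
    have := not_le.1 hlt
    omega
  have hfac : (1 : ℤ) ≤ n.factorial := by exact_mod_cast n.factorial_pos
  have h9 : (K : ℤ) ^ (n + 1) ≤ A * T := by
    refine le_trans ?_ hfinal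
    refine le_trans ?_ (le_mul_of_one_le_left (by positivity) hone)
    exact le_mul_of_one_le_left (by positivity) hfac
  rw [pow_succ', ← hT] at h9
  have hKA : (K : ℤ) ≤ A := le_of_mul_le_mul_right h9 hT0
  omega

end NC

end Vale.Agent.P202
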