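import Vale.Agent.P202.NC.Window.Neg

/-!
# P202, general source ring: bounding the window homology level by level
-/

noncomputable section

namespace Vale.Agent.P202

/-- The dimension of the middle of a triple is at most the sum of the two others. -/
theorem Diff.betti_mid_le {k M : Type*} [Field k] [AddCommGroup M] [Module k M] (D : Diff k M)
    {Y X W : Submodule k M} (hYX : Y ≤ X) (hXW : X ≤ W) (j : ℤ) (h₁ : Module.Finite k (D.H X Y j))
    (h₂ : Module.Finite k (D.H W X j)) :
    Module.Finite k (D.H W Y j) ∧ D.betti W Y j ≤ D.betti X Y j + D.betti W X j := by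
  have h₃ : Module.Finite k (D.H W Y j) := Diff.finite_mid _ _ (D.exact_mid hYX hXW j)
  refine ⟨h₃, ?_⟩
  rw [Diff.betti, Diff.finrank_mid _ _ (D.exact_mid hYX hXW j)]
  exact add_le_add (LinearMap.finrank_range_le _) (Submodule.finrank_le _)

namespace NC

open Segre Window

variable {k : Type*} [Field k] {n : ℕ} (X : Datum k (n + 1)) {K i : ℕ}

namespace Datum

/-- Rows of lev `i` and position at least `l` are multiples of `c`. -/
def sub (K i l : ℕ) : Submodule (Pw k n) (Tot X.G) where
  carrier := {x | x ∈ X.part K (i + 1) ∧ ∀ g, X.lev g = i → l ≤ X.G.pos g →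
    (fun e => x (g, e)) ∈ (cut k n K (winCut K i)).map
      (LinearMap.lsmul (Pw k n) (Cov n → Lam k n) X.c)}
  add_mem' := by
    rintro x y ⟨hx, hx'⟩ ⟨hy, hy'⟩
    exact ⟨Submodule.add_mem _ hx hy,
      fun g h1 h2 => Submodule.add_mem _ (hx' g h1 h2) (hy' g h1 h2)⟩
  zero_mem' := ⟨Submodule.zero_mem _, fun _ _ _ => Submodule.zero_mem _⟩
  smul_mem' := by
    rintro c x ⟨hx, hx'⟩
    exact ⟨Submodule.smul_mem _ c hx, fun g h1 h2 => Submodule.smul_mem _ c (hx' g h1 h2)⟩

/-- The same, over `k`. -/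
def subK (K i l : ℕ) : Submodule k (Tot X.G) := (X.sub K i l).restrictScalars k

/-- The rows of lev `i` and position `l`. -/
abbrev Rows (i l : ℕ) : Type := {g : X.G.ι // X.lev g = i ∧ X.G.pos g = l}

theorem part_le_sub (l : ℕ) : X.partK K i ≤ X.subK K i l := by
  intro x hx
  refine ⟨X.part_mono K (Nat.le_succ i) hx, fun g h1 _ => ?_⟩
  have : (fun e => x (g, e)) = 0 := funext fun e => (hx g).2 h1.ge e
  rw [this]
  exact Submodule.zero_mem _

theorem sub_le_part (l : ℕ) : X.subK K i l ≤ X.partK K (i + 1) := fun _ h => h.1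

theorem sub_mono {l l' : ℕ} (h : l ≤ l') : X.subK K i l ≤ X.subK K i l' :=
  fun _ hx => ⟨hx.1, fun g h1 h2 => hx.2 g h1 (h.trans h2)⟩

theorem sub_top : X.subK K i (n + 1 + X.m + 1) = X.partK K (i + 1) := by
  refine le_antisymm (X.sub_le_part _) fun x hx => ⟨hx, fun g _ h2 => ?_⟩
  have := X.pos_le g
  have := X.lev_le g
  omega

theorem delta_smul_row (c : Pw k n) (f : Cov n → Lam k n) :
    delta k (Lam k n) (c • f) = c • delta k (Lam k n) f :=
  (delta (Pw k n) (Lam k n)).map_smul c f

theorem row_dTot (x : Tot X.G) (h : X.G.ι) :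
    (fun e => dTot X.G x (h, e)) = ∑ g, X.G.mat h g • (fun e => x (g, e)) +
      rsgn X.G h • delta k (Lam k n) (fun e => x (h, e)) := by
  funext e
  simp [dTot_apply, FreeCx.dA_apply, Finset.sum_apply]

theorem lsmul_mem {L : ℤ} {f : Cov n → Lam k n} (hf : f ∈ cut k n K L) :
    X.c • f ∈ (cut k n K L).map (LinearMap.lsmul (Pw k n) (Cov n → Lam k n) X.c) :=
  ⟨f, hf, rfl⟩

theorem mat_row_mem_map {h g : X.G.ι} (hhg : X.lev h = X.lev g)
    {f : Cov n → Lam k n}
    (hf : f ∈ (cut k n K (winCut K (X.lev g))).map (LinearMap.lsmul (Pw k n) (Cov n → Lam k n) X.c)) :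
    X.G.mat h g • f ∈
      (cut k n K (winCut K (X.lev h))).map (LinearMap.lsmul (Pw k n) (Cov n → Lam k n) X.c) := by
  rw [hhg]
  exact Submodule.smul_mem _ _ hf

theorem sub_stable (hX : X.IsGood K) (l : ℕ) : (totDiff X.G).Stable (X.subK K i l) := by
  rintro x ⟨hx, hx'⟩
  refine ⟨X.part_stable hX (i + 1) x hx, fun g hg hl => ?_⟩
  rw [totDiff_d, row_dTot]
  refine Submodule.add_mem _ (Submodule.sum_mem _ fun g' _ => ?_) (zsmul_mem ?_ _)
  · by_cases hm : X.G.mat g g' = 0
    · rw [hm, zero_smul]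
      exact Submodule.zero_mem _
    · have h1 := hX.mat_lev g g' hm
      have h2 := X.G.mat_pos g g' hm
      rcases lt_or_eq_of_le (hg ▸ h1 : i ≤ X.lev g') with hlt | heq
      · have : (fun e => x (g', e)) = 0 := funext fun e => (hx g').2 hlt e
        rw [this, smul_zero]
        exact Submodule.zero_mem _
      · have := X.mat_row_mem_map (h := g) (g := g') (hg.trans heq)
          (f := fun e => x (g', e)) (by rw [← heq]; exact hx' g' heq.symm (by omega))
        rwa [hg] at this
  · obtain ⟨w, hw, hwx⟩ := hx' g hg hl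
    refine ⟨delta k (Lam k n) w, cut_delta hw, ?_⟩
    rw [← hwx, LinearMap.lsmul_apply, LinearMap.lsmul_apply, delta_smul_row]

theorem row_zero_of_part {x : Tot X.G} (hx : x ∈ X.part K i) {g : X.G.ι} (hg : i ≤ X.lev g) :
    (fun e => x (g, e)) = 0 := funext fun e => (hx g).2 hg e

/-- Away from the top degree `c` kills the homology of a level. -/
theorem kill (hn : 1 ≤ n) (hK : 1 ≤ K) (hX : X.IsGood K) {j : ℤ}
    (hj : j < X.m) {x : Tot X.G} (hx : x ∈ X.part K (i + 1)) (hxj : x ∈ (totDiff X.G).deg j)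
    (hdx : dTot X.G x ∈ X.part K i) :
    ∃ w, w ∈ X.part K (i + 1) ∧ w ∈ (totDiff X.G).deg (j + 1) ∧
      X.c • x - dTot X.G w ∈ X.part K i := by
  classical
  have hrows : ∀ g, X.lev g = i → (fun e => dTot X.G x (g, e)) = 0 :=
    fun g hg => X.row_zero_of_part hdx hg.ge
  -- top rows
  have key : ∀ g, ∃ y : Cov n → Lam k n, (X.lev g = i ∧ X.G.pos g = i + X.m) →
      y ∈ cut k n K (winCut K i) ∧
      (∀ e, (X.G.pos g : ℤ) - cdeg n e ≠ j + 1 → y e = 0) ∧
      rsgn X.G g • delta k (Lam k n) y = fun e => x (g, e) := by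
    intro g
    by_cases hg : X.lev g = i ∧ X.G.pos g = i + X.m
    swap
    · exact ⟨0, fun h => absurd h hg⟩
    obtain ⟨hg1, hg2⟩ := hg
    have hd := hrows g hg1
    rw [row_dTot] at hd
    have hsum : ∑ g', X.G.mat g g' • (fun e => x (g', e)) = 0 := by
      refine Finset.sum_eq_zero fun g' _ => ?_
      by_cases hm : X.G.mat g g' = 0
      · rw [hm, zero_smul]
      · have h1 := hX.mat_lev g g' hm
        have h2 := X.G.mat_pos g g' hm
        have h3 := X.pos_le g'
        rw [X.row_zero_of_part hx (g := g') (by omega), smul_zero]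
    rw [hsum, zero_add, rsgn_smul_eq_zero] at hd
    obtain ⟨a, ha⟩ : ∃ a : ℕ, (a : ℤ) = X.G.pos g - j := ⟨(X.G.pos g - j).toNat, by omega⟩
    have hf := (hx g).1
    rw [hg1] at hf
    obtain ⟨y, y1, y2, y3⟩ := cut_exact (Window.sliceHyp k n K hn) (a := a)
      (L := winCut K i) (f := fun e => x (g, e)) (fun t ht p hp1 hpn hlo => by
        have : a ≥ i + 1 := by omega
        intro hpa
        have h' := hlo ⟨p - 1, by omega⟩ (by simp only; omega)
        simp only [winCut] at ht h'
        rw [Nat.cast_sub hp1, Nat.cast_one, sub_mul, one_mul] at h'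
        have h2 : (K : ℤ) * (i : ℤ) ≤ (K : ℤ) * p :=
          mul_le_mul_of_nonneg_left (by omega) (by omega)
        rw [mul_comm (p : ℤ)] at h'
        omega) hf (fun e he => hxj g e (by omega)) hd
    refine ⟨rsgn X.G g • y, fun _ => ⟨zsmul_mem y1 _, fun e he => ?_, ?_⟩⟩
    · rw [Pi.smul_apply, y2 e (by omega), smul_zero]
    · rw [map_zsmul, y3, smul_smul, rsgn, ← pow_add, ← two_mul, pow_mul, neg_one_sq, one_pow,
        one_smul]
  choose y hy using key
  let y0 : Tot X.G := fun p =>
    if X.lev p.1 = i ∧ X.G.pos p.1 = i + X.m then y p.1 p.2 else 0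
  have hy0row : ∀ g, (fun e => y0 (g, e)) =
      if X.lev g = i ∧ X.G.pos g = i + X.m then y g else 0 := fun g => by
    funext e
    by_cases h : X.lev g = i ∧ X.G.pos g = i + X.m <;> simp [y0, h]
  have m1 : y0 ∈ X.part K (i + 1) := by
    intro g
    rw [hy0row]
    refine ⟨?_, fun h e => if_neg fun h' => by simp only at h'; omega⟩
    split_ifs with h
    · rw [h.1]
      exact (hy g h).1
    · exact Submodule.zero_mem _
  have m2 : y0 ∈ (totDiff X.G).deg (j + 1) := by
    intro g e he
    by_cases h : X.lev g = i ∧ X.G.pos g = i + X.m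
    · simp only [y0, h, and_self, if_true]
      exact (hy g h).2.1 e he
    · exact if_neg h
  set x' := x - dTot X.G y0 with hx'def
  have hx' : x' ∈ X.part K (i + 1) :=
    Submodule.sub_mem _ hx (X.part_stable hX (i + 1) y0 m1)
  have hx'j : x' ∈ (totDiff X.G).deg j :=
    Submodule.sub_mem _ hxj (by simpa [totDiff_d] using (totDiff X.G).d_deg _ _ m2)
  have hdx' : dTot X.G x' = dTot X.G x := by rw [map_sub, dTot_dTot, sub_zero]
  have htop : ∀ g, X.lev g = i → X.G.pos g = i + X.m → (fun e => x' (g, e)) = 0 := by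
    intro g hg1 hg2
    have hd : (fun e => dTot X.G y0 (g, e)) = fun e => x (g, e) := by
      rw [row_dTot, hy0row, if_pos ⟨hg1, hg2⟩, (hy g ⟨hg1, hg2⟩).2.2, add_eq_right]
      refine Finset.sum_eq_zero fun g' _ => ?_
      by_cases hm : X.G.mat g g' = 0
      · rw [hm, zero_smul]
      · have h2 := X.G.mat_pos g g' hm
        rw [hy0row, if_neg (by omega), smul_zero]
    funext e
    rw [hx'def, Pi.sub_apply, congrFun hd e, sub_self, Pi.zero_apply]
  -- the homotopy
  let hw : Tot X.G := fun p => ∑ g', X.hom p.1 g' • x' (g', p.2)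
  have hwrow : ∀ g, (fun e => hw (g, e)) = ∑ g', X.hom g g' • (fun e => x' (g', e)) := fun g => by
    funext e
    simp [hw, Finset.sum_apply]
  have w1 : hw ∈ X.part K (i + 1) := by
    intro g
    refine ⟨?_, fun hg e => ?_⟩
    · rw [hwrow]
      refine Submodule.sum_mem _ fun g' _ => ?_
      by_cases hh : X.hom g g' = 0
      · rw [hh, zero_smul]
        exact Submodule.zero_mem _
      · rw [(X.hom_supp g g' hh).1]
        exact Submodule.smul_mem _ _ (hx' g').1
    · simp only [hw]
      refine Finset.sum_eq_zero fun g' _ => ?_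
      by_cases hh : X.hom g g' = 0
      · rw [hh, zero_smul]
      · rw [(hx' g').2 ((X.hom_supp g g' hh).1 ▸ hg) e, smul_zero]
  have w2 : hw ∈ (totDiff X.G).deg (j + 1) := by
    intro g e he
    refine Finset.sum_eq_zero fun g' _ => ?_
    by_cases hh : X.hom g g' = 0
    · rw [hh, zero_smul]
    · rw [hx'j g' e (by have := (X.hom_supp g g' hh).2; omega), smul_zero]
  refine ⟨X.c • y0 + hw, Submodule.add_mem _ (Submodule.smul_mem _ _ m1) w1, ?_, ?_⟩
  · refine Submodule.add_mem _ (fun g e he => ?_) w2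
    rw [Pi.smul_apply, m2 g e he, smul_zero]
  have hsmul : ∀ (c : Pw k n) (v : Tot X.G), dTot X.G (c • v) = c • dTot X.G v := by
    intro c v
    funext ⟨g, e⟩
    have e1 : (fun e' => (c • v) (g, e')) = c • fun e' => v (g, e') := rfl
    have e2 : (fun g' => (c • v) (g', e)) = c • fun g' => v (g', e) := rfl
    rw [Pi.smul_apply, dTot_apply, dTot_apply, e1, e2, map_smul, delta_smul_row, Pi.smul_apply,
      Pi.smul_apply, smul_add, smul_comm c (rsgn X.G g)]
  have hgoal : X.c • x - dTot X.G (X.c • y0 + hw) = X.c • x' - dTot X.G hw := by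
    rw [map_add, hsmul, hx'def, smul_sub]
    abel
  rw [hgoal]
  have hin : X.c • x' - dTot X.G hw ∈ X.part K (i + 1) :=
    Submodule.sub_mem _ (Submodule.smul_mem _ _ hx') (X.part_stable hX (i + 1) hw w1)
  intro g
  refine ⟨(hin g).1, fun hg e => ?_⟩
  rcases lt_or_eq_of_le hg with hlt | heq
  · exact (hin g).2 hlt e
  have hgi : X.lev g = i := heq.symm
  -- rows of lev `i`
  have hxd : ∀ g', X.lev g' = i → rsgn X.G g' • delta k (Lam k n) (fun e' => x' (g', e')) =
      -∑ g'', X.G.mat g' g'' • (fun e' => x' (g'', e')) := by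
    intro g' hg'
    have := hrows g' hg'
    rw [← hdx', row_dTot, add_comm] at this
    exact eq_neg_of_add_eq_zero_left this
  have hB : ∀ g₁ g₂, X.lev g₁ = i → X.G.mat g₁ g₂ • (fun e' => x' (g₂, e')) =
      X.blockMat g₁ g₂ • (fun e' => x' (g₂, e')) := by
    intro g₁ g₂ h1
    by_cases hl : X.lev g₁ = X.lev g₂
    · simp [Datum.blockMat, hl]
    · by_cases hm : X.G.mat g₁ g₂ = 0
      · simp [Datum.blockMat, hl, hm]
      · have := hX.mat_lev g₁ g₂ hm
        rw [X.row_zero_of_part hx' (g := g₂) (by omega), smul_zero, smul_zero]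
  have hπ : ∀ a, ∑ g', X.π a g' • (fun e' => x' (g', e')) = ∑ g', (if X.lev g' = i then 0 else
      X.π a g' • (fun e' => x' (g', e'))) := by
    intro a
    refine Finset.sum_congr rfl fun g' _ => ?_
    split_ifs with h
    · by_cases hp : X.π a g' = 0
      · rw [hp, zero_smul]
      · obtain ⟨p1, p2⟩ := X.π_supp a g' hp
        rw [htop g' h (by omega), smul_zero]
    · rfl
  have hψπ : ∑ g', (X.ψ * X.π) g g' • (fun e' => x' (g', e')) = 0 := by
    simp only [Matrix.mul_apply, Finset.sum_smul, mul_smul]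
    rw [Finset.sum_comm]
    refine Finset.sum_eq_zero fun a _ => ?_
    rw [← Finset.smul_sum, hπ a]
    by_cases hp : X.ψ g a = 0
    · rw [hp, zero_smul]
    · rw [Finset.sum_eq_zero, smul_zero]
      intro g' _
      split_ifs with h
      · rfl
      · by_cases hp' : X.π a g' = 0
        · rw [hp', zero_smul]
        · exact absurd ((X.π_supp a g' hp').1.trans ((X.ψ_supp g a hp).1.symm.trans hgi)) h
  have hhom := fun g' => congrFun (congrFun hX.homotopy g) g'
  simp only [Matrix.sub_apply, Matrix.smul_apply, Matrix.add_apply, smul_eq_mul,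
    Matrix.one_apply, mul_ite, mul_one, mul_zero] at hhom
  have hid : X.c • (fun e' => x' (g, e')) =
      ∑ g', (X.blockMat * X.hom) g g' • (fun e' => x' (g', e')) +
        ∑ g', (X.hom * X.blockMat) g g' • (fun e' => x' (g', e')) := by
    rw [← Finset.sum_add_distrib, ← sub_zero (X.c • (fun e' => x' (g, e'))), ← hψπ]
    simp only [← add_smul, ← hhom, sub_smul, Finset.sum_sub_distrib]
    congr 1
    rw [Finset.sum_eq_single g]
    · rw [if_pos rfl]
    · intro b _ hb
      rw [if_neg (fun h => hb h.symm), zero_smul]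
    · exact fun h => absurd (Finset.mem_univ g) h
  have hdh : (fun e' => dTot X.G hw (g, e')) = X.c • (fun e' => x' (g, e')) := by
    rw [row_dTot, hid]
    congr 1
    · simp only [hwrow, Finset.smul_sum, smul_smul, Matrix.mul_apply, Finset.sum_smul]
      rw [Finset.sum_comm]
      refine Finset.sum_congr rfl fun g₂ _ => Finset.sum_congr rfl fun g₁ _ => ?_
      by_cases hh : X.hom g₁ g₂ = 0
      · simp [hh]
      · rw [mul_smul, mul_smul]
        by_cases hl : X.lev g = X.lev g₁
        · simp [Datum.blockMat, hl]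
        · by_cases hm : X.G.mat g g₁ = 0
          · simp [Datum.blockMat, hl, hm]
          · have := hX.mat_lev g g₁ hm
            have := (X.hom_supp g₁ g₂ hh).1
            rw [X.row_zero_of_part hx' (g := g₂) (by omega)]
            simp
    · simp only [hwrow, map_sum, Finset.smul_sum, Matrix.mul_apply, Finset.sum_smul]
      rw [Finset.sum_comm]
      refine Finset.sum_congr rfl fun g₁ _ => ?_
      by_cases hh : X.hom g g₁ = 0
      · simp [hh]
      · obtain ⟨l1, l2⟩ := X.hom_supp g g₁ hh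
        have hs : rsgn X.G g = - rsgn X.G g₁ := by simp [rsgn, l2, pow_succ]
        rw [delta_smul_row, hs, neg_smul, smul_comm (rsgn X.G g₁), hxd g₁ (l1.symm.trans hgi),
          smul_neg, neg_neg, Finset.smul_sum]
        refine Finset.sum_congr rfl fun g₂ _ => ?_
        rw [hB g₁ g₂ (l1.symm.trans hgi), smul_smul]
  rw [Pi.sub_apply, congrFun hdh e, Pi.smul_apply, Pi.smul_apply, sub_self]

/-- Multiplication by `c` is injective. -/
def CInj : Prop := ∀ v : Lam k n, X.c • v = 0 → v = 0

/-- The homology of a level embeds into that modulo `c`. -/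
theorem level_inj (hn : 1 ≤ n) (hK : 1 ≤ K) (hX : X.IsGood K) (hc : X.CInj)
    {j : ℤ} (hj : j < X.m) :
    Function.Injective ((totDiff X.G).projMap (W := X.partK K (i + 1)) (X.part_le_sub (K := K)
      (i := i) 0) j) := by
  classical
  rw [← LinearMap.ker_eq_bot, ← (totDiff X.G).exact_mid (X.part_le_sub 0) (X.sub_le_part 0) j,
    eq_bot_iff]
  rintro _ ⟨q, rfl⟩
  obtain ⟨⟨z, hz⟩, rfl⟩ := Submodule.Quotient.mk_surjective _ q
  obtain ⟨⟨hz1, hz2⟩, hz3⟩ := hz
  rw [SetLike.mem_coe, Submodule.mem_comap, totDiff_d] at hz3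
  rw [Submodule.mem_bot, Diff.inclMap_mk, Diff.mk_eq_zero_iff, Diff.mem_bdries]
  have key : ∀ g, ∃ u : Cov n → Lam k n, X.lev g = i →
      u ∈ cut k n K (winCut K i) ∧ (X.c • u) = fun e => z (g, e) := by
    intro g
    by_cases hg : X.lev g = i
    · obtain ⟨u, hu, hu'⟩ := hz1.2 g hg (Nat.zero_le _)
      exact ⟨u, fun _ => ⟨hu, hu'⟩⟩
    · exact ⟨0, fun h => absurd h hg⟩
  choose u hu using key
  let x : Tot X.G := fun p => if X.lev p.1 = i then u p.1 p.2 else 0
  have hxrow : ∀ g, (fun e => x (g, e)) = if X.lev g = i then u g else 0 := fun g => by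
    funext e
    by_cases h : X.lev g = i <;> simp [x, h]
  have x1 : x ∈ X.part K (i + 1) := by
    intro g
    rw [hxrow]
    refine ⟨?_, fun h e => if_neg (show ¬ X.lev g = i by omega)⟩
    split_ifs with h
    · rw [h]; exact (hu g h).1
    · exact Submodule.zero_mem _
  have x2 : x ∈ (totDiff X.G).deg j := by
    intro g e he
    by_cases h : X.lev g = i
    · have := congrFun (hu g h).2 e
      simp only [x, h, if_true]
      refine hc _ ?_
      rw [← Pi.smul_apply, this]
      exact hz2 g e he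
    · exact if_neg h
  have hd : z - X.c • x ∈ X.part K i := by
    intro g
    refine ⟨Submodule.sub_mem _ (hz1.1 g).1 (Submodule.smul_mem _ X.c (x1 g).1), fun h e => ?_⟩
    rcases lt_or_eq_of_le h with hlt | heq
    · rw [Pi.sub_apply, Pi.smul_apply, (hz1.1 g).2 hlt e, (x1 g).2 hlt e, smul_zero, sub_zero]
    · have := congrFun (hu g heq.symm).2 e
      simp only [Pi.sub_apply, Pi.smul_apply, x, heq.symm, if_true]
      rw [← Pi.smul_apply, this, sub_self]
  have x3 : dTot X.G x ∈ X.part K i := by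
    have h1 := X.part_stable hX i _ hd
    rw [totDiff_d, map_sub] at h1
    have h2 : X.c • dTot X.G x ∈ X.part K i := by
      have : X.c • dTot X.G x = dTot X.G (X.c • x) := by
        funext ⟨g, e⟩
        have e1 : (fun e' => (X.c • x) (g, e')) = X.c • fun e' => x (g, e') := rfl
        have e2 : (fun g' => (X.c • x) (g', e)) = X.c • fun g' => x (g', e) := rfl
        rw [Pi.smul_apply, dTot_apply, dTot_apply, e1, e2, map_smul, delta_smul_row,
          Pi.smul_apply, Pi.smul_apply, smul_add, smul_comm X.c (rsgn X.G g)]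
      rw [this]
      have := Submodule.sub_mem _ hz3 h1
      rwa [sub_sub_cancel] at this
    intro g
    refine ⟨(X.part_stable hX (i + 1) x x1 g).1, fun h e => hc _ ?_⟩
    exact (h2 g).2 h e
  obtain ⟨w, w1, w2, w3⟩ := X.kill hn hK hX hj x1 x2 x3
  refine ⟨w, ⟨w1, w2⟩, z - dTot X.G w, ⟨?_, ?_⟩, ?_⟩
  · have : z - dTot X.G w = (z - X.c • x) + (X.c • x - dTot X.G w) := by abel
    rw [this]
    exact Submodule.add_mem _ hd w3
  · refine Submodule.sub_mem _ hz2 ?_
    simpa [totDiff_d] using (totDiff X.G).d_deg _ _ w2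
  · rw [totDiff_d]
    abel

end Datum

end NC

end Vale.Agent.P202
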