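import Vale.Agent.P202.NC.Window.Neg
import Vale.Agent.P202.NC.Band.Lead

/-!
# P202, general source ring: the bottom of the window in the top degree

A family of `U` on the free generators of level `0` gives a cycle through `ψ`; reading it back with
`π` multiplies it by `c`, so its degrees at most `K - ord c` are seen in the quotient by the window.
-/

noncomputable section

namespace Vale.Agent.P202.NC

open Segre Window

variable {k : Type*} [Field k] {n : ℕ}

theorem coeff_smul_zero (a : Pw k n) {F : Lam k n} {T : ℤ}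
    (hF : ∀ t, t ≤ T → F.coeff t = 0) {t : ℤ} (ht : t ≤ T) : (a • F).coeff t = 0 :=
  smul_coeff_eq_zero (K := 0) (by simp) (lo := T) hF (by simpa using ht)

/-- The sum of the values in degrees `1, ..., N`. -/
def partSum (n K N : ℕ) : ℤ := ∑ t ∈ Finset.Icc (1 : ℤ) N, pFun n K t

theorem mainSum_le_partSum (K o : ℕ) (hK : 1 ≤ K) :
    mainSum n K ≤ partSum n K (K - o) + o * ((n + 1) * K : ℕ) ^ n := by
  classical
  have hioc : Finset.Ioc (0 : ℤ) K = Finset.Icc (1 : ℤ) K := Finset.ext fun t => by
    simp only [Finset.mem_Ioc, Finset.mem_Icc]; omega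
  rw [mainSum, partSum, hioc,
    ← Finset.sum_sdiff (show Finset.Icc (1 : ℤ) ((K - o : ℕ) : ℤ) ⊆ Finset.Icc (1 : ℤ) K from
      Finset.Icc_subset_Icc_right (by omega)), add_comm]
  refine add_le_add le_rfl ?_
  refine (Finset.sum_le_card_nsmul _ _ (((n + 1) * K : ℕ) ^ n : ℤ) fun t ht => ?_).trans ?_
  · simp only [Finset.mem_sdiff, Finset.mem_Icc] at ht
    rw [pFun]
    refine (Finset.prod_le_prod (g := fun _ => (((n + 1) * K : ℕ) : ℤ))
      (fun a _ => add_nonneg (by linarith [ht.1.1]) (by positivity)) fun a _ => ?_).trans (by simp)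
    have h1 : (a.val : ℤ) * K ≤ (n : ℤ) * K :=
      mul_le_mul_of_nonneg_right (by exact_mod_cast a.2.le) (by positivity)
    push_cast
    linarith [ht.1.2]
  · rw [nsmul_eq_mul]
    refine mul_le_mul_of_nonneg_right ?_ (by positivity)
    rw [Finset.card_sdiff_of_subset (Finset.Icc_subset_Icc_right (by omega)), Int.card_Icc,
      Int.card_Icc]
    omega

theorem exists_ord {c : Pw k n} (hc : c ≠ 0) : ∃ o : ℕ, (segreHom k n c).order = (o : ℤ) := by
  have h := Band.segreHom_ne_zero hc
  refine ⟨(segreHom k n c).order.toNat, (Int.toNat_of_nonneg ?_).symm⟩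
  by_contra hn
  exact HahnSeries.coeff_order_eq_zero.not.2 h (segreHom_coeff_neg k n c (not_le.1 hn))

namespace Datum

variable (X : Datum k (n + 1))

/-- The generic generators of level `0`. -/
abbrev Free0 : Type := {a : X.free // X.flev a = 0}

/-- Index set of the families in degrees `1, ..., N`. -/
abbrev BotN (K N : ℕ) : Type :=
  X.Free0 × (Σ t : ↥(Finset.Icc (1 : ℤ) N), ↥(boxAt n K t.1))

theorem card_botN (K N : ℕ) :
    (Fintype.card (X.BotN K N) : ℤ) = (X.frank 0 : ℤ) * partSum n K N := by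
  rw [Fintype.card_prod, Fintype.card_sigma, Fintype.card_subtype, Nat.cast_mul, Nat.cast_sum]
  congr 1
  rw [partSum, ← Finset.sum_coe_sort (Finset.Icc (1 : ℤ) N)]
  refine Finset.sum_congr rfl fun t _ => ?_
  rw [Fintype.card_coe, card_boxAt K (Finset.mem_Icc.1 t.2).1]

/-- The coefficient in degree `t` of a family. -/
def polyAt (K N : ℕ) (a : X.Free0) (t : ↥(Finset.Icc (1 : ℤ) N)) :
    (X.BotN K N → k) →ₗ[k] Coef k n where
  toFun v := ∑ α : ↥(boxAt n K t.1), AddMonoidAlgebra.single α.1 (v (a, Sigma.mk t α))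
  map_add' v w := by
    simp only [Pi.add_apply, AddMonoidAlgebra.single_add, Finset.sum_add_distrib]
  map_smul' r v := by
    simp only [Pi.smul_apply, RingHom.id_apply, Finset.smul_sum, AddMonoidAlgebra.smul_single]

/-- The family with the given coefficients. -/
def emb (K N : ℕ) : (X.BotN K N → k) →ₗ[k] (X.Free0 → Lam k n) where
  toFun v a := ∑ t : ↥(Finset.Icc (1 : ℤ) N), HahnSeries.single t.1 (X.polyAt K N a t v)
  map_add' v w := by
    funext a
    rw [Pi.add_apply, ← Finset.sum_add_distrib]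
    refine Finset.sum_congr rfl fun t _ => ?_
    refine HahnSeries.ext (funext fun s => ?_)
    rw [HahnSeries.coeff_add, map_add]
    by_cases hs : s = t.1
    · simp only [hs, HahnSeries.coeff_single_same]
    · simp only [HahnSeries.coeff_single_of_ne hs, add_zero]
  map_smul' r v := by
    funext a
    rw [RingHom.id_apply, Pi.smul_apply, Finset.smul_sum]
    refine Finset.sum_congr rfl fun t _ => ?_
    refine HahnSeries.ext (funext fun s => ?_)
    rw [HahnSeries.coeff_smul, map_smul]
    by_cases hs : s = t.1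
    · simp only [hs, HahnSeries.coeff_single_same]
    · simp only [HahnSeries.coeff_single_of_ne hs, smul_zero]

theorem coeff_emb {K N : ℕ} (v : X.BotN K N → k) (a : X.Free0) (s : ℤ) :
    ((X.emb K N v) a).coeff s = ∑ t : ↥(Finset.Icc (1 : ℤ) N),
      if s = t.1 then X.polyAt K N a t v else 0 := by
  change (∑ t : ↥(Finset.Icc (1 : ℤ) N),
    HahnSeries.single t.1 (X.polyAt K N a t v)).coeff s = _
  rw [HahnSeries.coeff_sum]
  refine Finset.sum_congr rfl fun t _ => ?_
  rw [HahnSeries.coeff_single]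
  congr

theorem coeff_emb_self {K N : ℕ} (v : X.BotN K N → k) (a : X.Free0)
    (t : ↥(Finset.Icc (1 : ℤ) N)) (α : ↥(boxAt n K t.1)) :
    (((X.emb K N v) a).coeff t.1).coeff α.1 = v (a, ⟨t, α⟩) := by
  rw [coeff_emb, Finset.sum_eq_single t, if_pos rfl]
  · simp only [polyAt, LinearMap.coe_mk, AddHom.coe_mk, AddMonoidAlgebra.coeff_sum,
      Finsupp.finsetSum_apply, AddMonoidAlgebra.coeff_single]
    rw [Finset.sum_eq_single α]
    · simp
    · intro β _ hβ
      rw [Finsupp.single_apply, if_neg fun h => hβ (Subtype.ext h)]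
    · simp
  · intro s _ hs
    rw [if_neg fun h => hs (Subtype.ext h.symm)]
  · simp

theorem emb_mem {K N : ℕ} (v : X.BotN K N → k) (a : X.Free0) :
    (X.emb K N v) a ∈ comp k n K none := by
  change ∑ t : ↥(Finset.Icc (1 : ℤ) N), HahnSeries.single t.1 (X.polyAt K N a t v) ∈ _
  refine Submodule.sum_mem _ fun t _ => ?_
  intro s β hne
  by_cases hs : s = t.1
  · subst hs
    rw [HahnSeries.coeff_single_same] at hne
    simp only [polyAt, LinearMap.coe_mk, AddHom.coe_mk, AddMonoidAlgebra.coeff_sum,
      Finsupp.finsetSum_apply] at hne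
    obtain ⟨α, -, hα⟩ := Finset.exists_ne_zero_of_sum_ne_zero hne
    rw [AddMonoidAlgebra.coeff_single, Finsupp.single_apply] at hα
    split_ifs at hα with hαβ
    · exact hαβ ▸ mem_boxAt.1 α.2
    · exact absurd rfl hα
  · simp [HahnSeries.coeff_single_of_ne hs] at hne

/-- The coefficients in degrees `1, ..., N`. -/
def read (K N : ℕ) : (X.Free0 → Lam k n) →ₗ[k] (X.BotN K N → k) where
  toFun f p := ((f p.1).coeff p.2.1.1).coeff p.2.2.1
  map_add' f g := by
    funext p
    simp
  map_smul' r f := by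
    funext p
    simp

/-- Projecting the augmentation rows to the generic generators of level `0`. -/
def proj0 : Tot X.G →ₗ[k] (X.Free0 → Lam k n) where
  toFun x a := ∑ g, X.π a.1 g • x (g, none)
  map_add' x y := by
    funext a
    simp [Finset.sum_add_distrib]
  map_smul' r x := by
    funext a
    simp only [Pi.smul_apply, RingHom.id_apply, Finset.smul_sum]
    exact Finset.sum_congr rfl fun g _ => smul_comm _ _ _

/-- Reading off the bottom of the window. -/
def botHom (K : ℕ) : Tot X.G →ₗ[k] (X.BotN K K → k) := (X.read K K).comp X.proj0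

theorem lev_of_π {a : X.Free0} {g : X.G.ι} (h : X.π a.1 g ≠ 0) : X.lev g = 0 := by
  rw [(X.π_supp a.1 g h).1, a.2]

theorem botHom_dTot (hn : 1 ≤ n) {K : ℕ} (hX : X.IsGood K) {y : Tot X.G}
    (hy : y ∈ top X.G (comp k n K)) : X.botHom K (dTot X.G y) = 0 := by
  classical
  funext ⟨a, t, α⟩
  change ((∑ g, X.π a.1 g • dTot X.G y (g, none)).coeff t.1).coeff α.1 = 0
  have ht := (Finset.mem_Icc.1 t.2).2
  suffices h : (∑ g, X.π a.1 g • dTot X.G y (g, none)).coeff t.1 = 0 by simp [h]
  have hrew : ∑ g, X.π a.1 g • dTot X.G y (g, none) =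
      ∑ g', ∑ g, (X.π a.1 g * X.G.mat g g') • y (g', none) := by
    rw [Finset.sum_comm]
    refine Finset.sum_congr rfl fun g _ => ?_
    rw [dTot_apply, delta_none, smul_zero, add_zero, FreeCx.dA_apply, Finset.smul_sum]
    exact Finset.sum_congr rfl fun g' _ => smul_smul _ _ _
  rw [hrew, HahnSeries.coeff_sum, Finset.sum_eq_zero]
  intro g' _
  by_cases hl : X.lev g' = 0
  · have hsum : ∑ g, X.π a.1 g * X.G.mat g g' = 0 := by
      have := congrFun (congrFun hX.π_block a.1) g'
      rw [Matrix.mul_apply, Matrix.zero_apply] at this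
      rw [← this]
      refine Finset.sum_congr rfl fun g _ => ?_
      by_cases hp : X.π a.1 g = 0
      · simp [hp]
      · simp [blockMat, hl, X.lev_of_π hp]
    rw [← Finset.sum_smul, hsum, zero_smul, HahnSeries.coeff_zero]
  rw [HahnSeries.coeff_sum, Finset.sum_eq_zero]
  intro g _
  by_cases hp : X.π a.1 g = 0
  · simp [hp]
  rw [← smul_smul]
  refine coeff_smul_zero _ (T := (K : ℤ)) (fun s hs => ?_) ht
  refine smul_coeff_eq_zero (hX.mat_mem g g') (lo := 0) (fun t' ht' => ?_) (by
    rw [X.lev_of_π hp, Nat.sub_zero]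
    have : K ≤ K * X.lev g' := Nat.le_mul_of_pos_right K (by omega)
    omega)
  by_contra hne
  obtain ⟨β, hβ⟩ : ∃ β, ((y (g', none)).coeff t').coeff β ≠ 0 := by
    by_contra hall
    simp only [not_exists, not_not] at hall
    exact hne (AddMonoidAlgebra.ext (Finsupp.ext hall))
  have hb := hy g' none t' β hβ ⟨0, by omega⟩
  simp [shift] at hb
  omega

theorem botHom_filt {K : ℕ} {x : Tot X.G}
    (hx : x ∈ (X.grading K).filt (comp k n K) (X.grading K).levWin) : X.botHom K x = 0 := by
  funext ⟨a, t, α⟩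
  change ((∑ g, X.π a.1 g • x (g, none)).coeff t.1).coeff α.1 = 0
  have ht := (Finset.mem_Icc.1 t.2).2
  suffices h : (∑ g, X.π a.1 g • x (g, none)).coeff t.1 = 0 by simp [h]
  rw [HahnSeries.coeff_sum, Finset.sum_eq_zero]
  intro g _
  by_cases hp : X.π a.1 g = 0
  · simp [hp]
  refine coeff_smul_zero _ (T := (K : ℤ)) (fun s hs => hx.2 g none s ?_) ht
  refine (X.winCut_le K g s).1 ?_
  simp only [winCut, X.lev_of_π hp, CharP.cast_eq_zero, mul_zero, sub_zero]
  omega

theorem bdries_le_ker (hn : 1 ≤ n) {K : ℕ} (hX : X.IsGood K) (j : ℤ) :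
    ((totDiff X.G).bdries (top X.G (comp k n K))
        ((X.grading K).filt (comp k n K) (X.grading K).levWin) j).comap
      ((totDiff X.G).cycles (top X.G (comp k n K))
        ((X.grading K).filt (comp k n K) (X.grading K).levWin) j).subtype ≤
      LinearMap.ker ((X.botHom K).comp (Submodule.subtype _)) := by
  rintro ⟨x, hx⟩ h
  obtain ⟨w, ⟨hw, -⟩, y, ⟨hy, -⟩, e⟩ := (Diff.mem_bdries _).1 (Submodule.mem_comap.1 h)
  have e' : dTot X.G w + y = x := e
  rw [LinearMap.mem_ker, LinearMap.comp_apply, Submodule.subtype_apply]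
  change X.botHom K x = 0
  rw [← e', map_add, X.botHom_dTot hn hX hw, X.botHom_filt hy, add_zero]

theorem exists_cycle {K : ℕ} (hX : X.IsGood K) (f : X.Free0 → Lam k n)
    (hf : ∀ a, f a ∈ comp k n K none) :
    ∃ x, x ∈ (totDiff X.G).cycles (top X.G (comp k n K)) ⊥ (X.m : ℤ) ∧
      X.proj0 x = fun a => X.c • f a := by
  classical
  let u : X.G.ι → ↥(comp k n K none) := fun g =>
    ∑ a : X.Free0, X.ψ g a.1 • (⟨f a, hf a⟩ : ↥(comp k n K none))
  have hlev : ∀ g, u g ≠ 0 → X.lev g = 0 ∧ X.G.pos g = X.m := by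
    intro g hg
    obtain ⟨a, -, ha⟩ := Finset.exists_ne_zero_of_sum_ne_zero hg
    have := X.ψ_supp g a.1 (fun h => ha (by rw [h, zero_smul]))
    rw [a.2] at this
    omega
  have huc : u ∈ (X.G.diff (↥(comp k n K none)) k).cycles ⊤ ⊥ (X.m : ℤ) := by
    refine ⟨⟨trivial, fun g hg => ?_⟩, ?_⟩
    · by_contra h
      exact hg (by rw [(hlev g h).2])
    rw [SetLike.mem_coe, Submodule.mem_comap, Submodule.mem_bot]
    funext h
    change X.G.dA _ u h = 0
    simp only [FreeCx.dA_apply, u, Finset.smul_sum, smul_smul]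
    rw [Finset.sum_comm]
    refine Finset.sum_eq_zero fun a _ => ?_
    rw [← Finset.sum_smul]
    have hb := congrFun (congrFun hX.block_ψ h) a.1
    rw [Matrix.mul_apply, Matrix.zero_apply] at hb
    have : ∑ g, X.G.mat h g * X.ψ g a.1 = 0 := by
      rw [← hb]
      refine Finset.sum_congr rfl fun g _ => ?_
      by_cases hp : X.ψ g a.1 = 0
      · simp [hp]
      by_cases hm : X.G.mat h g = 0
      · simp [blockMat, hm]
      · have h1 := hX.mat_lev h g hm
        have h2 := (X.ψ_supp g a.1 hp).1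
        rw [a.2] at h2
        have h3 : X.lev h = X.lev g := by omega
        simp [blockMat, h3]
    rw [this, zero_smul]
  obtain ⟨x, hx, hxu⟩ := extend_cycle (G := X.G) Window.compHyp
    (Window.acycHyp hX.finite (L := n + 1 + X.m) fun g => by
      have := X.pos_le g
      have := X.lev_le g
      omega) Window.augHyp huc
  refine ⟨x, hx, funext fun a => ?_⟩
  change ∑ g, X.π a.1 g • x (g, none) = _
  simp only [hxu, u, Submodule.subtype_apply, Submodule.coe_sum, Submodule.coe_smul,
    Finset.smul_sum, smul_smul]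
  rw [Finset.sum_comm, Finset.sum_eq_single a]
  · rw [← Finset.sum_smul]
    congr 1
    have := congrFun (congrFun hX.π_ψ a.1) a.1
    rw [Matrix.mul_apply] at this
    simpa using this
  · intro b _ hb
    rw [← Finset.sum_smul]
    have := congrFun (congrFun hX.π_ψ a.1) b.1
    rw [Matrix.mul_apply, Matrix.smul_apply,
      Matrix.one_apply_ne fun h => hb (Subtype.ext h.symm), smul_zero] at this
    rw [this, zero_smul]
  · simp

theorem read_smul_injective {K o : ℕ} (ho : (segreHom k n X.c).order = (o : ℤ)) :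
    Function.Injective fun v : X.BotN K (K - o) → k =>
      X.read K K fun a => X.c • X.emb K (K - o) v a := by
  classical
  intro v w hvw
  have key : ∀ a, X.emb K (K - o) v a = X.emb K (K - o) w a := by
    intro a
    by_contra hne
    set F := X.emb K (K - o) v a - X.emb K (K - o) w a with hF
    have hF0 : F ≠ 0 := sub_ne_zero.2 hne
    have : NoZeroDivisors (Coef k n) := inferInstance
    have hord : (segreHom k n X.c * F).order = (o : ℤ) + F.order := by
      rw [HahnSeries.order_mul (Band.segreHom_ne_zero X.c_ne) hF0, ho]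
    have hFN : F.order ≤ ((K - o : ℕ) : ℤ) ∧ 1 ≤ F.order := by
      have h0 := HahnSeries.coeff_order_eq_zero.not.2 hF0
      rw [hF, HahnSeries.coeff_sub, coeff_emb, coeff_emb, ← Finset.sum_sub_distrib] at h0
      obtain ⟨t, -, ht⟩ := Finset.exists_ne_zero_of_sum_ne_zero h0
      rw [← hF] at ht
      by_cases he : F.order = t.1
      · have := Finset.mem_Icc.1 t.2
        omega
      · rw [if_neg he, if_neg he, sub_self] at ht
        exact absurd rfl ht
    have hT : (o : ℤ) + F.order ≤ K := by omega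
    obtain ⟨β, hβ⟩ : ∃ β, ((segreHom k n X.c * F).coeff ((o : ℤ) + F.order)).coeff β ≠ 0 := by
      by_contra hall
      simp only [not_exists, not_not] at hall
      refine HahnSeries.coeff_order_eq_zero.not.2
        (mul_ne_zero (Band.segreHom_ne_zero X.c_ne) hF0) ?_
      rw [hord]
      exact AddMonoidAlgebra.ext (Finsupp.ext hall)
    have hmem : X.c • F ∈ comp k n K none :=
      Submodule.smul_mem _ _ (Submodule.sub_mem _ (X.emb_mem v a) (X.emb_mem w a))
    have hbox : β ∈ boxAt n K ((o : ℤ) + F.order) := mem_boxAt.2 (hmem _ β hβ)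
    have := congrFun hvw (a, ⟨⟨(o : ℤ) + F.order, Finset.mem_Icc.2 ⟨by omega, hT⟩⟩, ⟨β, hbox⟩⟩)
    refine hβ ?_
    change ((X.c • F).coeff _).coeff β = 0
    rw [hF, smul_sub, HahnSeries.coeff_sub, AddMonoidAlgebra.coeff_sub, Finsupp.sub_apply,
      sub_eq_zero]
    exact this
  funext ⟨a, t, α⟩
  rw [← X.coeff_emb_self v a t α, key a, X.coeff_emb_self]

/-- The bottom of the window is large in the top degree. -/
theorem le_betti_bottom (hn : 1 ≤ n) {K o : ℕ} (hX : X.IsGood K)
    (ho : (segreHom k n X.c).order = (o : ℤ))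
    [Module.Finite k ((totDiff X.G).H (top X.G (comp k n K))
      ((X.grading K).filt (comp k n K) (X.grading K).levWin) (X.m : ℤ))] :
    (X.frank 0 : ℤ) * partSum n K (K - o) ≤
      ((totDiff X.G).betti (top X.G (comp k n K))
        ((X.grading K).filt (comp k n K) (X.grading K).levWin) (X.m : ℤ) : ℤ) := by
  classical
  let Q : (totDiff X.G).H (top X.G (comp k n K))
      ((X.grading K).filt (comp k n K) (X.grading K).levWin) (X.m : ℤ) →ₗ[k] (X.BotN K K → k) :=
    Submodule.liftQ _ ((X.botHom K).comp (Submodule.subtype _))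
      (X.bdries_le_ker hn hX (X.m : ℤ))
  let L₀ : (X.BotN K (K - o) → k) →ₗ[k] (X.Free0 → Lam k n) :=
    { toFun := fun v a => X.c • X.emb K (K - o) v a
      map_add' := fun v w => funext fun a => by simp
      map_smul' := fun r v => funext fun a => by
        simp only [map_smul, Pi.smul_apply, RingHom.id_apply]
        exact smul_comm X.c r (X.emb K (K - o) v a) }
  let L : (X.BotN K (K - o) → k) →ₗ[k] (X.BotN K K → k) := (X.read K K).comp L₀
  have hLinj : Function.Injective L := X.read_smul_injective ho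
  have hle : LinearMap.range L ≤ LinearMap.range Q := by
    rintro _ ⟨v, rfl⟩
    obtain ⟨x, hx, hxp⟩ := X.exists_cycle hX (X.emb K (K - o) v) fun a => X.emb_mem v a
    obtain ⟨⟨h1, h2⟩, h3⟩ := hx
    refine ⟨Submodule.Quotient.mk ⟨x, ⟨h1, h2⟩, Submodule.comap_mono bot_le h3⟩, ?_⟩
    change X.read K K (X.proj0 x) = L v
    rw [hxp]
    rfl
  have h := (Submodule.finrank_mono hle).trans (LinearMap.finrank_range_le Q)
  rw [LinearMap.finrank_range_of_inj hLinj, Module.finrank_fintype_fun_eq_card] at h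
  rw [← X.card_botN]
  exact_mod_cast h

end Datum

end Vale.Agent.P202.NC
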