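import Vale.Agent.P202.NC.Window.Block
import Vale.Agent.P202.NC.Band.Lead

/-!
# P202, general source ring: little homology below the top degree

The quotient of a level by `c` is filtered by position, with layers copies of the pair (cut
complex, `c` times it).
-/

noncomputable section

namespace Vale.Agent.P202

theorem Diff.subsingleton_H_self {k M : Type*} [Field k] [AddCommGroup M] [Module k M]
    (D : Diff k M) (X : Submodule k M) (j : ℤ) : Subsingleton (D.H X X j) :=
  Diff.subsingleton_H _ fun _ hx => Submodule.mem_sup_right hx.1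

namespace NC

open Segre Window

variable {k : Type*} [Field k] {n : ℕ} (X : Datum k (n + 1)) {K i l : ℕ}

namespace Datum

theorem cInj : X.CInj := fun v hv => by
  have : NoZeroDivisors (Coef k n) := inferInstance
  have h1 : segreHom k n X.c * v = 0 := hv
  exact (mul_eq_zero.1 h1).resolve_left (Band.segreHom_ne_zero X.c_ne)

theorem sign_sign (g : X.G.ι) {M : Type*} [AddCommGroup M] (v : M) :
    rsgn X.G g • rsgn X.G g • v = v := by
  rw [smul_smul, rsgn, ← pow_add, ← two_mul, pow_mul, neg_one_sq, one_pow, one_smul]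

theorem row_mem_deg {j : ℤ} {x : Tot X.G} (hx : x ∈ (totDiff X.G).deg j) {g : X.G.ι}
    (hl : X.G.pos g = l) : (fun e => x (g, e)) ∈ (lamDiff k n).deg (j - (l : ℤ)) :=
  fun e he => hx g e (by omega)

theorem mat_term_mem {g : X.G.ι} (hX : X.IsGood K) (hg : X.lev g = i) (hl : X.G.pos g = l)
    {x : Tot X.G} (hx : x ∈ X.subK K i (l + 1)) :
    ∑ g', X.G.mat g g' • (fun e => x (g', e)) ∈ cutMul k n K X.c (winCut K i) := by
  refine Submodule.sum_mem _ fun g' _ => ?_
  by_cases hm : X.G.mat g g' = 0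
  · rw [hm, zero_smul]
    exact Submodule.zero_mem _
  · have h1 := hX.mat_lev g g' hm
    have h2 := X.G.mat_pos g g' hm
    rcases lt_or_eq_of_le (hg ▸ h1 : i ≤ X.lev g') with hlt | heq
    · have : (fun e => x (g', e)) = 0 := funext fun e => (hx.1 g').2 hlt e
      rw [this, smul_zero]
      exact Submodule.zero_mem _
    · have := X.mat_row_mem_map (K := K) (h := g) (g := g') (hg.trans heq)
        (f := fun e => x (g', e)) (by rw [← heq]; exact hx.2 g' heq.symm (by omega))
      rwa [hg] at this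

/-- The rows of a layer. -/
def rowCyc (hX : X.IsGood K) (i l : ℕ) (j : ℤ) (g : X.Rows i l) :
    (totDiff X.G).cycles (X.subK K i (l + 1)) (X.subK K i l) j →ₗ[k]
      (lamDiff k n).cycles (cutK k n K (winCut K i)) (cutMul k n K X.c (winCut K i))
        (j - (l : ℤ)) :=
  LinearMap.codRestrict _
    { toFun := fun x e => x.1 (g.1, e)
      map_add' := fun _ _ => rfl
      map_smul' := fun _ _ => rfl }
    fun x => by
      obtain ⟨g, hg, hl⟩ := g
      obtain ⟨x, ⟨hx1, hx2⟩, hx3⟩ := x
      refine (Diff.mem_cycles _).2 ⟨?_, X.row_mem_deg hx2 hl, ?_⟩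
      · have := (hx1.1 g).1
        rw [hg] at this
        exact this
      · have h4 := (show dTot X.G x ∈ X.subK K i l from hx3).2 g hg hl.ge
        rw [row_dTot] at h4
        have h5 := (Submodule.add_mem_iff_right _ (X.mat_term_mem hX hg hl hx1)).1 h4
        change delta k (Lam k n) (fun e => x (g, e)) ∈ cutMul k n K X.c (winCut K i)
        rw [← X.sign_sign g (delta k (Lam k n) fun e => x (g, e))]
        exact zsmul_mem h5 _

theorem rowCyc_apply (hX : X.IsGood K) (j : ℤ) (g : X.Rows i l)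
    (x : (totDiff X.G).cycles (X.subK K i (l + 1)) (X.subK K i l) j) :
    (X.rowCyc hX i l j g x).1 = fun e => x.1 (g.1, e) := rfl

/-- A layer against copies of the pair modulo `c`. -/
def layerMap (hX : X.IsGood K) (i l : ℕ) (j : ℤ) :
    (totDiff X.G).H (X.subK K i (l + 1)) (X.subK K i l) j →ₗ[k]
      (X.Rows i l → (lamDiff k n).H (cutK k n K (winCut K i)) (cutMul k n K X.c (winCut K i))
        (j - (l : ℤ))) :=
  Submodule.liftQ _
    (LinearMap.pi fun g => (Submodule.mkQ _).comp (X.rowCyc hX i l j g)) (by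
    rintro x hx
    obtain ⟨w, ⟨hw1, hw2⟩, y, ⟨hy1, hy2⟩, e⟩ := (Diff.mem_bdries _).1 (Submodule.mem_comap.1 hx)
    rw [LinearMap.mem_ker]
    funext g
    obtain ⟨g, hg, hl⟩ := g
    rw [LinearMap.pi_apply, LinearMap.comp_apply, Submodule.mkQ_apply, Pi.zero_apply,
      Diff.mk_eq_zero_iff, rowCyc_apply, Diff.mem_bdries]
    have hrow : delta k (Lam k n) (rsgn X.G g • fun e => w (g, e)) +
        (∑ g', X.G.mat g g' • (fun e => w (g', e)) + fun e => y (g, e)) =
        fun e => x.1 (g, e) := by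
      have e' : dTot X.G w + y = x.1 := e
      rw [← e', map_zsmul]
      change _ = (fun e => dTot X.G w (g, e)) + fun e => y (g, e)
      rw [row_dTot]
      abel
    have hwc : (rsgn X.G g • fun e => w (g, e)) ∈ cutK k n K (winCut K i) := by
      have := (hw1.1 g).1
      rw [hg] at this
      exact zsmul_mem this _
    have hwd : (rsgn X.G g • fun e => w (g, e)) ∈ (lamDiff k n).deg (j - (l : ℤ) + 1) := by
      refine zsmul_mem ?_ _
      rw [show j - (l : ℤ) + 1 = j + 1 - (l : ℤ) by ring]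
      exact X.row_mem_deg hw2 hl
    refine ⟨_, ⟨hwc, hwd⟩, _, ⟨?_, ?_⟩, hrow⟩
    · exact Submodule.add_mem _ (X.mat_term_mem hX hg hl hw1) (hy1.2 g hg hl.ge)
    · have h2 := (lamDiff k n).d_deg _ _ hwd
      rw [add_sub_cancel_right] at h2
      rw [eq_sub_of_add_eq' hrow]
      exact Submodule.sub_mem _ (X.row_mem_deg x.2.1.2 hl) h2)

theorem layerMap_injective (hX : X.IsGood K) (j : ℤ) :
    Function.Injective (X.layerMap hX i l j) := by
  classical
  rw [← LinearMap.ker_eq_bot, eq_bot_iff]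
  intro ξ hξ
  obtain ⟨⟨x, hx⟩, rfl⟩ := Submodule.Quotient.mk_surjective _ ξ
  obtain ⟨⟨hx1, hx2⟩, hx3⟩ := hx
  rw [Submodule.mem_bot, Diff.mk_eq_zero_iff, Diff.mem_bdries]
  have key : ∀ g, ∃ w : Cov n → Lam k n, (X.lev g = i ∧ X.G.pos g = l) →
      (w ∈ cutK k n K (winCut K i) ∧ w ∈ (lamDiff k n).deg (j - (l : ℤ) + 1)) ∧
      (fun e => x (g, e)) - delta k (Lam k n) w ∈ cutMul k n K X.c (winCut K i) := by
    intro g
    by_cases hg : X.lev g = i ∧ X.G.pos g = l
    swap
    · exact ⟨0, fun h => absurd h hg⟩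
    have h0 := congrFun (LinearMap.mem_ker.1 hξ) ⟨g, hg⟩
    rw [Pi.zero_apply] at h0
    obtain ⟨w, hw, y, hy, e⟩ := (Diff.mem_bdries _).1 ((Diff.mk_eq_zero_iff _ _).1 h0)
    refine ⟨w, fun _ => ⟨hw, ?_⟩⟩
    have e' : delta k (Lam k n) w + y = fun e => x (g, e) := e
    rw [← e', add_sub_cancel_left]
    exact hy.1
  choose w hw using key
  let W : Tot X.G := fun p =>
    if X.lev p.1 = i ∧ X.G.pos p.1 = l then (rsgn X.G p.1 • w p.1) p.2 else 0
  have hWrow : ∀ g, (fun e => W (g, e)) =
      if X.lev g = i ∧ X.G.pos g = l then rsgn X.G g • w g else 0 := fun g => by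
    funext e
    by_cases h : X.lev g = i ∧ X.G.pos g = l <;> simp [W, h]
  have W1 : W ∈ X.subK K i (l + 1) := by
    refine ⟨fun g => ⟨?_, fun h e => ?_⟩, fun g _ h2 => ?_⟩
    · rw [hWrow]
      split_ifs with h
      · rw [h.1]
        exact zsmul_mem (hw g h).1.1 _
      · exact Submodule.zero_mem _
    · exact if_neg fun h' => by simp only at h'; omega
    · rw [hWrow, if_neg (by omega)]
      exact Submodule.zero_mem _
  have W2 : W ∈ (totDiff X.G).deg (j + 1) := by
    intro g e he
    by_cases h : X.lev g = i ∧ X.G.pos g = l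
    · simp only [W, h, and_self, if_true]
      rw [Pi.smul_apply, (hw g h).1.2 e (by have := h.2; omega), smul_zero]
    · exact if_neg h
  have W3 := X.sub_stable (K := K) (i := i) hX (l + 1) W W1
  rw [totDiff_d] at W3
  have hin : x - dTot X.G W ∈ X.subK K i (l + 1) := Submodule.sub_mem _ hx1 W3
  refine ⟨W, ⟨W1, W2⟩, x - dTot X.G W, ⟨⟨hin.1, fun g hg hl => ?_⟩,
    Submodule.sub_mem _ hx2 (by simpa [totDiff_d] using (totDiff X.G).d_deg _ _ W2)⟩, by
      rw [totDiff_d]; abel⟩
  rcases lt_or_eq_of_le hl with hlt | heq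
  · exact hin.2 g hg hlt
  have hd : (fun e => dTot X.G W (g, e)) = delta k (Lam k n) (w g) := by
    rw [row_dTot, hWrow, if_pos ⟨hg, heq.symm⟩, map_zsmul, sign_sign, add_eq_right]
    refine Finset.sum_eq_zero fun g' _ => ?_
    by_cases hm : X.G.mat g g' = 0
    · rw [hm, zero_smul]
    · have h2 := X.G.mat_pos g g' hm
      rw [hWrow, if_neg (by omega), smul_zero]
  have hsub : (fun e => (x - dTot X.G W) (g, e)) =
      (fun e => x (g, e)) - delta k (Lam k n) (w g) := by
    rw [← hd]
    rfl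
  rw [hsub]
  exact (hw g ⟨hg, heq.symm⟩).2

variable {C₀ : ℕ}

/-- The conclusion of the band estimate, for one `K`. -/
def BandAt (K C₀ : ℕ) : Prop := ∀ i : ℕ, i ≤ n + 1 → ∀ j : ℤ,
  Module.Finite k ((lamDiff k n).H (cutK k n K (winCut K i)) (cutMul k n K X.c (winCut K i)) j) ∧
  (lamDiff k n).betti (cutK k n K (winCut K i)) (cutMul k n K X.c (winCut K i)) j ≤ C₀ * K ^ n

theorem layer_betti (hX : X.IsGood K) (hb : X.BandAt K C₀) (hi : i ≤ n + 1) (l : ℕ) (j : ℤ) :
    Module.Finite k ((totDiff X.G).H (X.subK K i (l + 1)) (X.subK K i l) j) ∧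
    (totDiff X.G).betti (X.subK K i (l + 1)) (X.subK K i l) j ≤
      Fintype.card (X.Rows i l) * (C₀ * K ^ n) := by
  have := (hb i hi (j - (l : ℤ))).1
  refine ⟨Module.Finite.of_injective _ (X.layerMap_injective hX j), ?_⟩
  refine (LinearMap.finrank_le_finrank_of_injective (X.layerMap_injective hX j)).trans ?_
  rw [Module.finrank_pi_fintype, Finset.sum_const, Finset.card_univ, smul_eq_mul]
  exact Nat.mul_le_mul le_rfl (hb i hi _).2

theorem finite_H_self (Z : Submodule k (Tot X.G)) (j : ℤ) :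
    Module.Finite k ((totDiff X.G).H Z Z j) ∧ (totDiff X.G).betti Z Z j = 0 := by
  have := (totDiff X.G).subsingleton_H_self Z j
  exact ⟨Module.Finite.of_surjective (0 : (Fin 0 → k) →ₗ[k] _)
    fun y => ⟨0, Subsingleton.elim _ _⟩, by simp [Diff.betti, Module.finrank_zero_of_subsingleton]⟩

theorem sub_betti (hX : X.IsGood K) (hb : X.BandAt K C₀) (hi : i ≤ n + 1) (j : ℤ) : ∀ N : ℕ,
    Module.Finite k ((totDiff X.G).H (X.subK K i N) (X.subK K i 0) j) ∧
    (totDiff X.G).betti (X.subK K i N) (X.subK K i 0) j ≤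
      (∑ l ∈ Finset.range N, Fintype.card (X.Rows i l)) * (C₀ * K ^ n) := by
  intro N
  induction N with
  | zero =>
    obtain ⟨f, b⟩ := X.finite_H_self (X.subK K i 0) j
    exact ⟨f, b.le.trans (Nat.zero_le _)⟩
  | succ N ih =>
    obtain ⟨f, b⟩ := X.layer_betti hX hb hi N j
    obtain ⟨f', b'⟩ := (totDiff X.G).betti_mid_le (X.sub_mono (Nat.zero_le N))
      (X.sub_mono (Nat.le_succ N)) j ih.1 f
    refine ⟨f', b'.trans ?_⟩
    rw [Finset.sum_range_succ, add_mul]
    exact Nat.add_le_add ih.2 b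

theorem sum_rows (i : ℕ) : ∑ l ∈ Finset.range (n + 1 + X.m + 1), Fintype.card (X.Rows i l) =
    (Finset.univ.filter fun g => X.lev g = i).card := by
  classical
  rw [Finset.card_eq_sum_card_fiberwise (f := X.G.pos) (t := Finset.range (n + 1 + X.m + 1))
    fun g hg => Finset.mem_coe.2 (Finset.mem_range.2 (by
      have := X.pos_le g
      have := X.lev_le g
      omega))]
  refine Finset.sum_congr rfl fun l _ => ?_
  rw [Fintype.card_subtype, Finset.filter_filter]

theorem part_step (hn : 1 ≤ n) (hK : 1 ≤ K) (hX : X.IsGood K) (hb : X.BandAt K C₀)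
    (hi : i ≤ n + 1) {j : ℤ} (hj : j < X.m) :
    Module.Finite k ((totDiff X.G).H (X.partK K (i + 1)) (X.partK K i) j) ∧
    (totDiff X.G).betti (X.partK K (i + 1)) (X.partK K i) j ≤
      (Finset.univ.filter fun g => X.lev g = i).card * (C₀ * K ^ n) := by
  obtain ⟨f, b⟩ := X.sub_betti hX hb hi j (n + 1 + X.m + 1)
  rw [X.sub_top] at f b
  rw [X.sum_rows] at b
  have inj := X.level_inj (K := K) (i := i) hn hK hX X.cInj hj
  exact ⟨Module.Finite.of_injective _ inj,
    (LinearMap.finrank_le_finrank_of_injective inj).trans b⟩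

/-- The window has little homology below the top degree. -/
theorem window_betti (hn : 1 ≤ n) (hK : 1 ≤ K) (hX : X.IsGood K) (hb : X.BandAt K C₀) {j : ℤ}
    (hj : j < X.m) :
    Module.Finite k ((totDiff X.G).H (X.partK K (n + 2)) ⊥ j) ∧
    (totDiff X.G).betti (X.partK K (n + 2)) ⊥ j ≤ Fintype.card X.G.ι * (C₀ * K ^ n) := by
  have main : ∀ i, i ≤ n + 2 → Module.Finite k ((totDiff X.G).H (X.partK K i) (X.partK K 0) j) ∧
      (totDiff X.G).betti (X.partK K i) (X.partK K 0) j ≤
        (∑ a ∈ Finset.range i, (Finset.univ.filter fun g => X.lev g = a).card) * (C₀ * K ^ n) := by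
    intro i
    induction i with
    | zero =>
      intro _
      obtain ⟨f, b⟩ := X.finite_H_self (X.partK K 0) j
      exact ⟨f, b.le.trans (Nat.zero_le _)⟩
    | succ i ih =>
      intro hi
      obtain ⟨f₀, b₀⟩ := ih (by omega)
      obtain ⟨f, b⟩ := X.part_step hn hK hX hb (i := i) (by omega) hj
      obtain ⟨f', b'⟩ := (totDiff X.G).betti_mid_le
        (show X.partK K 0 ≤ X.partK K i from X.part_mono K (Nat.zero_le i))
        (show X.partK K i ≤ X.partK K (i + 1) from X.part_mono K (Nat.le_succ i)) j f₀ f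
      refine ⟨f', b'.trans ?_⟩
      rw [Finset.sum_range_succ, add_mul]
      exact Nat.add_le_add b₀ b
  obtain ⟨f, b⟩ := main (n + 2) le_rfl
  rw [X.part_zero K] at f b
  refine ⟨f, b.trans (Nat.mul_le_mul ?_ le_rfl)⟩
  rw [← Finset.card_eq_sum_card_fiberwise (s := Finset.univ) (f := X.lev)
    fun g _ => Finset.mem_coe.2 (Finset.mem_range.2 (by have := X.lev_le g; omega))]
  exact le_of_eq Finset.card_univ

end Datum

end NC

end Vale.Agent.P202
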