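import Vale.Agent.P202.Window.Bottom

/-!
# P202, general source ring: levels of a filtered complex inside the total complex

The degree `t` part of the row `g` has level `(t + K * lev g) * M - pos g`, where `M` exceeds all
positions.
-/

noncomputable section

namespace Vale.Agent.P202.NC

open Segre Window

variable {k : Type*} [Field k] {n : ℕ}

/-- Parameters of the level filtration: the auxiliary grading, the step and the modulus. -/
structure Grading (G : FreeCx (Pw k n)) where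
  lev : G.ι → ℕ
  K : ℕ
  M : ℕ
  pos_lt : ∀ g, G.pos g < M
  lev_le : ∀ g, lev g ≤ n + 1
  lev_pos : ∀ g, lev g ≤ G.pos g

namespace Grading

variable {G : FreeCx (Pw k n)} (σ : Grading G)

/-- Level of the degree `t` part of the row `g`. -/
def level (g : G.ι) (t : ℤ) : ℤ := (t + (σ.K : ℤ) * σ.lev g) * (σ.M : ℤ) - G.pos g

/-- The position of the rows meeting a level. -/
def posOf (L : ℤ) : ℕ := ((-L) % (σ.M : ℤ)).toNat

/-- The degree in which the row `g` meets a level. -/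
def degOf (g : G.ι) (L : ℤ) : ℤ :=
  (L + (σ.posOf L : ℤ)) / (σ.M : ℤ) - (σ.K : ℤ) * σ.lev g

theorem M_pos (g : G.ι) : (0 : ℤ) < σ.M := by
  have := σ.pos_lt g
  omega

theorem level_eq_iff (g : G.ι) (t L : ℤ) :
    σ.level g t = L ↔ G.pos g = σ.posOf L ∧ t = σ.degOf g L := by
  have hM := σ.M_pos g
  have hg : (G.pos g : ℤ) < σ.M := by exact_mod_cast σ.pos_lt g
  constructor
  · rintro rfl
    have h1 : (σ.posOf (σ.level g t) : ℤ) = G.pos g := by
      simp only [posOf, level]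
      rw [neg_sub, show (G.pos g : ℤ) - (t + (σ.K : ℤ) * σ.lev g) * σ.M
          = G.pos g + (-(t + (σ.K : ℤ) * σ.lev g)) * σ.M by ring,
        Int.add_mul_emod_self_right, Int.emod_eq_of_lt (by omega) hg]
      simp
    refine ⟨by exact_mod_cast h1.symm, ?_⟩
    rw [degOf, h1, level, sub_add_cancel, Int.mul_ediv_cancel _ hM.ne']
    ring
  · rintro ⟨h1, rfl⟩
    have h2 := Int.emod_nonneg (-L) hM.ne'
    have hp : (σ.posOf L : ℤ) = (-L) % (σ.M : ℤ) := by simp [posOf, h2]
    have hd : (σ.M : ℤ) ∣ L + (σ.posOf L : ℤ) := by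
      rw [hp]
      have := Int.dvd_sub_self_of_emod_eq (a := -L) (b := (σ.M : ℤ)) rfl
      simpa [sub_neg_eq_add, add_comm] using this
    simp only [level, degOf, h1, sub_add_cancel, Int.ediv_mul_cancel hd]
    ring

theorem level_degOf {g : G.ι} {L : ℤ} (hg : G.pos g = σ.posOf L) : σ.level g (σ.degOf g L) = L :=
  (σ.level_eq_iff g _ L).2 ⟨hg, rfl⟩

theorem level_mono (g : G.ι) {t t' : ℤ} (h : t ≤ t') : σ.level g t ≤ σ.level g t' := by
  have := mul_le_mul_of_nonneg_right (show t + (σ.K : ℤ) * σ.lev g ≤ t' + (σ.K : ℤ) * σ.lev g by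
    omega) (σ.M_pos g).le
  simp only [level]
  omega

/-- A step down with the allowed degree shift raises the level. -/
theorem level_step {h g : G.ι} (hp : G.pos g = G.pos h + 1) (hl : σ.lev h ≤ σ.lev g) {t t' : ℤ}
    (ht : t' + ((σ.K * (σ.lev g - σ.lev h) : ℕ) : ℤ) ≤ t) : σ.level g t' < σ.level h t := by
  have e : ((σ.K * (σ.lev g - σ.lev h) : ℕ) : ℤ) = (σ.K : ℤ) * σ.lev g - (σ.K : ℤ) * σ.lev h := by
    rw [Nat.cast_mul, Nat.cast_sub hl]
    ring
  have := mul_le_mul_of_nonneg_right (show t' + (σ.K : ℤ) * σ.lev g ≤ t + (σ.K : ℤ) * σ.lev h by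
    omega) (σ.M_pos g).le
  simp only [level, hp, Nat.cast_add, Nat.cast_one]
  omega

/-- The entries respect the grading. -/
def MatUp : Prop :=
  ∀ h g, G.mat h g ≠ 0 → σ.lev h ≤ σ.lev g ∧ ∀ (t : ℤ) (F : Lam k n),
    (∀ t', t' + ((σ.K * (σ.lev g - σ.lev h) : ℕ) : ℤ) ≤ t → F.coeff t' = 0) →
      (G.mat h g • F).coeff t = 0

variable {σ}

theorem dA_coeff_eq_zero (hup : σ.MatUp) {x : Tot G} {L : ℤ}
    (hx : ∀ g e t, σ.level g t < L → (x (g, e)).coeff t = 0) (h : G.ι) (e : Cov n) {t : ℤ}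
    (ht : σ.level h t ≤ L) :
    (G.dA (Lam k n) (fun g => x (g, e)) h).coeff t = 0 := by
  rw [FreeCx.dA_apply, HahnSeries.coeff_sum]
  refine Finset.sum_eq_zero fun g _ => ?_
  by_cases hm : G.mat h g = 0
  · simp [hm]
  · obtain ⟨hl, hz⟩ := hup h g hm
    exact hz t _ fun t' ht' => hx g e t'
      (lt_of_lt_of_le (σ.level_step (G.mat_pos h g hm) hl ht') ht)

theorem dTot_coeff (hup : σ.MatUp) {x : Tot G} {L : ℤ}
    (hx : ∀ g e t, σ.level g t < L → (x (g, e)).coeff t = 0) (h : G.ι) (e : Cov n) {t : ℤ}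
    (ht : σ.level h t ≤ L) :
    (dTot G x (h, e)).coeff t = rsgn G h • delta k (Coef k n) (slot G x h t) e := by
  rw [dTot_apply, HahnSeries.coeff_add, dA_coeff_eq_zero hup hx h e ht, zero_add,
    HahnSeries.coeff_smul, slot_delta_part]

section Pieces

variable [IsScalarTower k (Pw k n) (Lam k n)] {C : Cov n → Submodule (Pw k n) (Lam k n)}

variable (σ C) in
/-- The part of level at least `L`. -/
def filt (L : ℤ) : Submodule k (Tot G) where
  carrier := {f | f ∈ top G C ∧ ∀ g e t, σ.level g t < L → (f (g, e)).coeff t = 0}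
  add_mem' := by
    rintro f f' ⟨h1, h2⟩ ⟨h1', h2'⟩
    exact ⟨Submodule.add_mem _ h1 h1', fun g e t ht => by simp [h2 g e t ht, h2' g e t ht]⟩
  zero_mem' := ⟨Submodule.zero_mem _, fun _ _ _ _ => by simp⟩
  smul_mem' := by
    rintro c f ⟨h1, h2⟩
    exact ⟨Submodule.smul_mem _ c h1, fun g e t ht => by simp [h2 g e t ht]⟩

theorem filt_le_top (L : ℤ) : σ.filt C L ≤ top G C := fun _ h => h.1

theorem filt_anti {L L' : ℤ} (h : L ≤ L') : σ.filt C L' ≤ σ.filt C L :=
  fun _ hf => ⟨hf.1, fun g e t ht => hf.2 g e t (lt_of_lt_of_le ht h)⟩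

theorem filt_stable {K₀ : ℕ} (hC : CompHyp K₀ C) (hup : σ.MatUp) (L : ℤ) :
    (totDiff G).Stable (σ.filt C L) := by
  intro x hx
  refine ⟨top_stable hC x hx.1, fun h e t ht => ?_⟩
  rw [totDiff_d, dTot_coeff hup hx.2 h e ht.le]
  have : slot G x h t = 0 := funext fun e' => hx.2 h e' t ht
  rw [this, map_zero, Pi.zero_apply, smul_zero]

theorem slot_cycle (hup : σ.MatUp) {x : Tot G} {L : ℤ} (hx : x ∈ σ.filt C L)
    (hdx : dTot G x ∈ σ.filt C (L + 1)) {g : G.ι} {t : ℤ} (ht : σ.level g t = L) :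
    delta k (Coef k n) (slot G x g t) = 0 := by
  funext e
  have h1 := hdx.2 g e t (by omega)
  rw [dTot_coeff hup hx.2 g e ht.le, rsgn_smul_eq_zero] at h1
  exact h1

variable (σ) in
/-- The family concentrated at level `L`. -/
def ofSlots (L : ℤ) (c : G.ι → Cov n → Coef k n) : Tot G :=
  fun p => if G.pos p.1 = σ.posOf L then HahnSeries.single (σ.degOf p.1 L) (c p.1 p.2) else 0

theorem ofSlots_coeff (L : ℤ) (c : G.ι → Cov n → Coef k n) (g : G.ι) (e : Cov n) (s : ℤ) :
    (σ.ofSlots L c (g, e)).coeff s = if σ.level g s = L then c g e else 0 := by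
  simp only [ofSlots]
  by_cases h1 : G.pos g = σ.posOf L
  · rw [if_pos h1]
    by_cases h2 : s = σ.degOf g L
    · subst h2
      simp [σ.level_degOf h1]
    · rw [HahnSeries.coeff_single_of_ne h2,
        if_neg (fun h => h2 ((σ.level_eq_iff g s L).1 h).2)]
  · rw [if_neg h1, if_neg (fun h => h1 ((σ.level_eq_iff g s L).1 h).1), HahnSeries.coeff_zero]

theorem ofSlots_mem_filt {K₀ : ℕ} (hC : CompHyp K₀ C) {L : ℤ} {c : G.ι → Cov n → Coef k n}
    (hc : ∀ g, G.pos g = σ.posOf L → c g ∈ slice k n K₀ (σ.degOf g L)) :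
    σ.ofSlots L c ∈ σ.filt C L := by
  refine ⟨fun g e => (hC e _).2 fun s α h => ?_, fun g e t ht => ?_⟩
  · rw [ofSlots_coeff] at h
    split_ifs at h with hh
    · obtain ⟨h1, rfl⟩ := (σ.level_eq_iff g s L).1 hh
      exact hc g h1 e α h
    · simp at h
  · rw [ofSlots_coeff, if_neg (by omega)]

theorem ofSlots_mem_deg {L : ℤ} {c : G.ι → Cov n → Coef k n} {j : ℤ}
    (hc : ∀ g, G.pos g = σ.posOf L → c g ∈ (sliceDiff k n).deg (j - σ.posOf L)) :
    σ.ofSlots L c ∈ (totDiff G).deg j := by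
  intro g e he
  simp only [ofSlots]
  split_ifs with h
  · rw [hc g h e (by omega)]
    simp
  · rfl

theorem slot_ofSlots (L : ℤ) (c : G.ι → Cov n → Coef k n) {g : G.ι} {t : ℤ}
    (ht : σ.level g t = L) : slot G (σ.ofSlots L c) g t = c g := by
  funext e
  simp [slot, ofSlots_coeff, ht]

theorem mem_filt_succ {x : Tot G} {L : ℤ} (hx : x ∈ σ.filt C L)
    (h : ∀ g, G.pos g = σ.posOf L → slot G x g (σ.degOf g L) = 0) : x ∈ σ.filt C (L + 1) := by
  refine ⟨hx.1, fun g e t ht => ?_⟩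
  rcases (Int.lt_add_one_iff.1 ht).lt_or_eq with h1 | h1
  · exact hx.2 g e t h1
  · obtain ⟨hg, rfl⟩ := (σ.level_eq_iff g t L).1 h1
    exact congrFun (h g hg) e

theorem slot_eq_zero_of_mem {x : Tot G} {L : ℤ} (hx : x ∈ σ.filt C (L + 1)) {g : G.ι} {t : ℤ}
    (ht : σ.level g t = L) : slot G x g t = 0 :=
  funext fun e => hx.2 g e t (by omega)

variable (σ) in
/-- The slices at level `L` have no homology in total position `j`. -/
def SliceZero (K₀ : ℕ) (L j : ℤ) : Prop :=
  ∀ g, G.pos g = σ.posOf L → ∀ z, z ∈ slice k n K₀ (σ.degOf g L) →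
    z ∈ (sliceDiff k n).deg (j - σ.posOf L) → delta k (Coef k n) z = 0 →
    ∃ y, y ∈ slice k n K₀ (σ.degOf g L) ∧ y ∈ (sliceDiff k n).deg (j + 1 - σ.posOf L) ∧
      delta k (Coef k n) y = z

/-- Elimination of the lowest level. -/
theorem elim {K₀ : ℕ} (hC : CompHyp K₀ C) (hup : σ.MatUp) {x : Tot G} {L j : ℤ}
    (hx : x ∈ σ.filt C L) (hj : x ∈ (totDiff G).deg j) (hdx : dTot G x ∈ σ.filt C (L + 1))
    (hz : σ.SliceZero K₀ L j) :
    ∃ c : G.ι → Cov n → Coef k n, σ.ofSlots L c ∈ σ.filt C L ∧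
      σ.ofSlots L c ∈ (totDiff G).deg (j + 1) ∧
      x - dTot G (σ.ofSlots L c) ∈ σ.filt C (L + 1) := by
  classical
  have key : ∀ g, ∃ y : Cov n → Coef k n, G.pos g = σ.posOf L →
      y ∈ slice k n K₀ (σ.degOf g L) ∧ y ∈ (sliceDiff k n).deg (j + 1 - σ.posOf L) ∧
      rsgn G g • delta k (Coef k n) y = slot G x g (σ.degOf g L) := by
    intro g
    by_cases hg : G.pos g = σ.posOf L
    · have hl := σ.level_degOf hg
      have hd : slot G x g (σ.degOf g L) ∈ (sliceDiff k n).deg (j - σ.posOf L) := by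
        rw [← hg]
        exact slot_mem_deg hj g _
      obtain ⟨y, y1, y2, y3⟩ := hz g hg _ (slot_mem_slice hC hx.1 g _) hd
        (slot_cycle hup hx hdx hl)
      refine ⟨rsgn G g • y, fun _ => ⟨zsmul_mem y1 _, zsmul_mem y2 _, ?_⟩⟩
      rw [map_zsmul, y3, smul_smul, rsgn, ← pow_add, ← two_mul, pow_mul]
      simp
    · exact ⟨0, fun h => absurd h hg⟩
  choose c hc using key
  have m1 := ofSlots_mem_filt (σ := σ) hC (L := L) (c := c) fun g hg => (hc g hg).1
  refine ⟨c, m1, ofSlots_mem_deg fun g hg => (hc g hg).2.1, ?_⟩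
  refine mem_filt_succ ((σ.filt C L).sub_mem hx (filt_stable hC hup L _ m1)) ?_
  intro g hg
  have hl := σ.level_degOf hg
  funext e
  change (x (g, e) - dTot G (σ.ofSlots L c) (g, e)).coeff (σ.degOf g L) = 0
  rw [HahnSeries.coeff_sub, dTot_coeff hup m1.2 g e hl.le, slot_ofSlots L c hl]
  have := congrFun (hc g hg).2.2 e
  simp only [Pi.smul_apply, slot] at this
  rw [this, sub_self]

/-- Finitely many steps. -/
theorem push {K₀ : ℕ} (hC : CompHyp K₀ C) (hup : σ.MatUp) {j : ℤ} :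
    ∀ (N : ℕ) {x : Tot G} {L : ℤ}, x ∈ σ.filt C L → x ∈ (totDiff G).deg j →
      dTot G x ∈ σ.filt C (L + N) → (∀ L', L ≤ L' → L' < L + N → σ.SliceZero K₀ L' j) →
      ∃ y, y ∈ σ.filt C L ∧ y ∈ (totDiff G).deg (j + 1) ∧ x - dTot G y ∈ σ.filt C (L + N) := by
  intro N
  induction N with
  | zero =>
    intro x L hx _ _ _
    exact ⟨0, Submodule.zero_mem _, Submodule.zero_mem _, by simpa using hx⟩
  | succ N ih =>
    intro x L hx hj hdx hz
    have hle : L + 1 ≤ L + ((N + 1 : ℕ) : ℤ) := by omega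
    obtain ⟨c, c1, c2, c3⟩ := elim hC hup hx hj (filt_anti hle hdx) (hz L le_rfl (by omega))
    set w := σ.ofSlots L c
    have hj' : x - dTot G w ∈ (totDiff G).deg j := by
      refine Submodule.sub_mem _ hj ?_
      have := (totDiff G).d_deg _ _ c2
      simpa [totDiff_d] using this
    have hd' : dTot G (x - dTot G w) = dTot G x := by rw [map_sub, dTot_dTot, sub_zero]
    have heq : L + 1 + (N : ℤ) = L + ((N + 1 : ℕ) : ℤ) := by push_cast; ring
    obtain ⟨y, y1, y2, y3⟩ := ih c3 hj' (by rw [hd', heq]; exact hdx)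
      fun L' h1 h2 => hz L' (by omega) (by omega)
    refine ⟨w + y, Submodule.add_mem _ c1 (filt_anti (by omega) y1),
      Submodule.add_mem _ c2 y2, ?_⟩
    rw [map_add, ← sub_sub, ← heq]
    exact y3

theorem exists_mem_filt {x : Tot G} (hx : x ∈ top G C) : ∃ L, x ∈ σ.filt C L := by
  refine ⟨-∑ p : G.ι × Cov n, |σ.level p.1 (x p).order|, hx, fun g e t ht => ?_⟩
  refine HahnSeries.coeff_eq_zero_of_lt_order ?_
  by_contra hc
  have h1 := σ.level_mono g (not_lt.1 hc)
  have h2 : |σ.level g (x (g, e)).order| ≤ ∑ p : G.ι × Cov n, |σ.level p.1 (x p).order| :=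
    Finset.single_le_sum (f := fun p : G.ι × Cov n => |σ.level p.1 (x p).order|)
      (fun _ _ => abs_nonneg _) (Finset.mem_univ (g, e))
  linarith [neg_abs_le (σ.level g (x (g, e)).order)]

theorem filt_ext (x : Tot G) (h : ∀ L, x ∈ σ.filt C L) : x = 0 := by
  funext ⟨g, e⟩
  refine HahnSeries.ext (funext fun t => ?_)
  simpa using (h (σ.level g t + 1)).2 g e t (by omega)

omit [IsScalarTower k (Pw k n) (Lam k n)] in
theorem level_lt_of_lt (g : G.ι) {t L : ℤ} (ht : t < -|L| - (σ.K : ℤ) * σ.lev g) :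
    σ.level g t < L := by
  have hM : (1 : ℤ) ≤ σ.M := σ.M_pos g
  have h1 : (t + (σ.K : ℤ) * σ.lev g) * (σ.M : ℤ) ≤ (-|L| - 1) * (σ.M : ℤ) :=
    mul_le_mul_of_nonneg_right (by omega) (by omega)
  have h2 : |L| * 1 ≤ |L| * (σ.M : ℤ) := mul_le_mul_of_nonneg_left hM (abs_nonneg _)
  simp only [level]
  nlinarith [neg_abs_le L]

/-- Infinitely many steps. -/
theorem push_inf {K₀ : ℕ} (hC : CompHyp K₀ C) (hup : σ.MatUp) {j L : ℤ} {x : Tot G}
    (hx : x ∈ σ.filt C L) (hj : x ∈ (totDiff G).deg j) (hdx : dTot G x = 0)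
    (hz : ∀ L', L ≤ L' → σ.SliceZero K₀ L' j) :
    ∃ y, y ∈ σ.filt C L ∧ y ∈ (totDiff G).deg (j + 1) ∧ dTot G y = x := by
  classical
  let P : ℕ → Tot G → Prop := fun m z =>
    z ∈ σ.filt C (L + m) ∧ z ∈ (totDiff G).deg j ∧ dTot G z = 0
  have step : ∀ (m : ℕ) (z : Tot G), ∃ c : G.ι → Cov n → Coef k n, P m z →
      σ.ofSlots (L + m) c ∈ σ.filt C (L + m) ∧
      σ.ofSlots (L + m) c ∈ (totDiff G).deg (j + 1) ∧
      P (m + 1) (z - dTot G (σ.ofSlots (L + m) c)) := by
    intro m z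
    by_cases h : P m z
    · obtain ⟨c, c1, c2, c3⟩ := elim hC hup h.1 h.2.1
        (by rw [h.2.2]; exact Submodule.zero_mem _) (hz _ (by omega))
      refine ⟨c, fun _ => ⟨c1, c2, ?_, ?_, ?_⟩⟩
      · simpa [add_assoc] using c3
      · refine Submodule.sub_mem _ h.2.1 ?_
        simpa [totDiff_d] using (totDiff G).d_deg _ _ c2
      · rw [map_sub, h.2.2, dTot_dTot, sub_zero]
    · exact ⟨0, fun h' => absurd h' h⟩
  choose cf hcf using step
  let xs : ℕ → Tot G := fun m =>
    Nat.rec x (fun i z => z - dTot G (σ.ofSlots (L + i) (cf i z))) m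
  have hxs : ∀ m, P m (xs m) := by
    intro m
    induction m with
    | zero => exact ⟨by simpa [xs] using hx, by simpa [xs] using hj, by simpa [xs] using hdx⟩
    | succ m ih => exact (hcf m _ ih).2.2
  let ys : ℕ → Tot G := fun m => σ.ofSlots (L + m) (cf m (xs m))
  let idx : G.ι → ℤ → ℕ := fun g t => (σ.level g t - L).toNat
  let yc : G.ι → Cov n → ℤ → Coef k n := fun g e t =>
    if L ≤ σ.level g t then (ys (idx g t) (g, e)).coeff t else 0
  have hb : ∀ g e, BddBelow (Function.support (yc g e)) := by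
    intro g e
    refine ⟨-|L| - (σ.K : ℤ) * σ.lev g, fun t ht => ?_⟩
    by_contra hc
    refine ht ?_
    have := level_lt_of_lt (σ := σ) g (not_le.1 hc)
    simp only [yc]
    rw [if_neg (by omega)]
  let y : Tot G := fun p => HahnSeries.ofSuppBddBelow (yc p.1 p.2) (hb p.1 p.2)
  have hy : ∀ g e t, (y (g, e)).coeff t =
      if L ≤ σ.level g t then (ys (idx g t) (g, e)).coeff t else 0 := fun g e t => by
    simp [y, yc]
  have hy1 : y ∈ σ.filt C L := by
    refine ⟨fun g e => (hC e _).2 fun t α h => ?_, fun g e t ht => ?_⟩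
    · rw [hy] at h
      split_ifs at h with hh
      · exact (hC e _).1 ((hcf _ _ (hxs _)).1.1 g e) t α h
      · simp at h
    · rw [hy, if_neg (by omega)]
  have hy2 : y ∈ (totDiff G).deg (j + 1) := by
    intro g e he
    refine HahnSeries.ext (funext fun t => ?_)
    rw [hy]
    split_ifs
    · simp only [ys]
      rw [(hcf _ _ (hxs _)).2.1 g e he]
    · simp
  have hsum : ∀ M : ℕ, y - ∑ m ∈ Finset.range M, ys m ∈ σ.filt C (L + M) := by
    intro M
    refine ⟨fun g e => ?_, fun g e t ht => ?_⟩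
    · refine (C e).sub_mem (hy1.1 g e) ?_
      rw [Finset.sum_apply]
      exact (C e).sum_mem fun m _ => (hcf _ _ (hxs _)).1.1 g e
    · rw [Pi.sub_apply, Finset.sum_apply, HahnSeries.coeff_sub, HahnSeries.coeff_sum, hy]
      have hne : ∀ m : ℕ, σ.level g t ≠ L + m → (ys m (g, e)).coeff t = 0 := by
        intro m hm
        simp only [ys, ofSlots_coeff]
        exact if_neg hm
      by_cases hl : L ≤ σ.level g t
      · rw [if_pos hl, Finset.sum_eq_single (idx g t), sub_self]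
        · intro m _ hm
          exact hne m fun h => hm (by simp only [idx]; omega)
        · intro hm
          refine absurd (Finset.mem_range.2 ?_) hm
          simp only [idx]
          omega
      · rw [if_neg hl, Finset.sum_eq_zero (fun m _ => hne m (by omega)), sub_self]
  have hxM : ∀ M : ℕ, xs M = x - dTot G (∑ m ∈ Finset.range M, ys m) := by
    intro M
    induction M with
    | zero => simp [xs]
    | succ M ih =>
      rw [Finset.sum_range_succ, map_add, ← sub_sub, ← ih]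
  refine ⟨y, hy1, hy2, sub_eq_zero.1 (filt_ext (σ := σ) (C := C) _ fun L' => ?_)⟩
  obtain ⟨M, hM⟩ : ∃ M : ℕ, L' ≤ L + M := ⟨(L' - L).toNat, by omega⟩
  refine filt_anti hM ?_
  have e : dTot G y - x = dTot G (y - ∑ m ∈ Finset.range M, ys m) - xs M := by
    rw [hxM, map_sub]
    abel
  rw [e]
  exact Submodule.sub_mem _ (filt_stable hC hup _ _ (hsum M)) (hxs M).1

end Pieces

end Grading

end Vale.Agent.P202.NC
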