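import Vale.Agent.P202.NC.Window.Graded
import Vale.Agent.P202.NC.Datum
import Vale.Agent.P202.NC.LamDiff
import Vale.Agent.P202.Window

/-!
# P202, general source ring: the window of a datum has little homology below the top degree

On the rows of one level the constant `c` is null-homotopic away from the top degree, so the
homology there injects into that of the quotient by `c`, which the band estimate bounds.
-/

noncomputable section

namespace Vale.Agent.P202.NC

open Segre Window

variable {k : Type*} [Field k] {n : ℕ}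

namespace Datum

variable (X : Datum k (n + 1))

/-- The grading of a datum. -/
def grading (K : ℕ) : Grading X.G where
  lev := X.lev
  K := K
  M := n + 1 + X.m + 1
  pos_lt g := by
    have := X.pos_le g
    have := X.lev_le g
    omega
  lev_le := X.lev_le
  lev_pos := X.le_pos

theorem matUp {K : ℕ} (hX : X.IsGood K) : (X.grading K).MatUp := by
  intro h g hne
  refine ⟨hX.mat_lev h g hne, fun t F hF => ?_⟩
  exact smul_coeff_eq_zero (hX.mat_mem h g) (lo := t - ((K * (X.lev g - X.lev h) : ℕ) : ℤ))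
    (fun t' ht' => hF t' (by simp only [grading]; omega)) (by omega)

/-- The window cut of the level `i`. -/
def winCut (K i : ℕ) : ℤ := (K : ℤ) + 1 - (K : ℤ) * i

/-- The part of the window in levels below `i`. -/
def part (K i : ℕ) : Submodule (Pw k n) (Tot X.G) where
  carrier := {x | ∀ g, (fun e => x (g, e)) ∈ cut k n K (winCut K (X.lev g)) ∧
    (i ≤ X.lev g → ∀ e, x (g, e) = 0)}
  add_mem' := by
    intro x y hx hy g
    exact ⟨Submodule.add_mem _ (hx g).1 (hy g).1,
      fun h e => by rw [Pi.add_apply, (hx g).2 h e, (hy g).2 h e, add_zero]⟩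
  zero_mem' := fun g => ⟨Submodule.zero_mem _, fun _ _ => rfl⟩
  smul_mem' := by
    intro c x hx g
    exact ⟨Submodule.smul_mem _ c (hx g).1,
      fun h e => by rw [Pi.smul_apply, (hx g).2 h e, smul_zero]⟩

/-- The same, over `k`. -/
def partK (K i : ℕ) : Submodule k (Tot X.G) := (X.part K i).restrictScalars k

theorem mem_part {K i : ℕ} {x : Tot X.G} :
    x ∈ X.part K i ↔ ∀ g, (fun e => x (g, e)) ∈ cut k n K (winCut K (X.lev g)) ∧
      (i ≤ X.lev g → ∀ e, x (g, e) = 0) := Iff.rfl

theorem part_mono (K : ℕ) {i i' : ℕ} (h : i ≤ i') : X.part K i ≤ X.part K i' :=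
  fun _ hx g => ⟨(hx g).1, fun hg => (hx g).2 (h.trans hg)⟩

theorem part_zero (K : ℕ) : X.partK K 0 = ⊥ := by
  rw [eq_bot_iff]
  intro x hx
  rw [Submodule.mem_bot]
  funext p
  exact (hx p.1).2 (Nat.zero_le _) p.2

theorem winCut_le (K : ℕ) (g : X.G.ι) (t : ℤ) :
    t < winCut K (X.lev g) ↔ (X.grading K).level g t < (X.grading K).levWin := by
  rw [← not_le, ← not_le, Grading.levWin, Grading.lev_ge_iff]
  simp only [winCut, grading]
  omega

theorem part_top (K : ℕ) :
    X.partK K (n + 2) = (X.grading K).filt (comp k n K) (X.grading K).levWin := by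
  ext x
  constructor
  · intro hx
    exact ⟨fun g e => (hx g).1.1 e,
      fun g e t ht => (hx g).1.2 e t ((X.winCut_le K g t).2 ht)⟩
  · rintro ⟨h1, h2⟩ g
    exact ⟨⟨fun e => h1 g e, fun e t ht => h2 g e t ((X.winCut_le K g t).1 ht)⟩,
      fun h => absurd h (by have := X.lev_le g; omega)⟩

theorem cut_delta {K : ℕ} {L : ℤ} {f : Cov n → Lam k n} (hf : f ∈ cut k n K L) :
    delta k (Lam k n) f ∈ cut k n K L := by
  refine ⟨fun e => delta_mem Window.compHyp hf.1 e, fun e t ht => ?_⟩
  have h0 : (fun e' => (f e').coeff t) = 0 := funext fun e' => hf.2 e' t ht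
  change coeffHom t (delta k (Lam k n) f e) = 0
  rw [delta_map (R := k) (R' := k) (coeffHom t) f e]
  change delta k (Coef k n) (fun e' => (f e').coeff t) e = 0
  rw [h0, map_zero, Pi.zero_apply]

theorem dA_row_mem {K : ℕ} (hX : X.IsGood K) {L : ℤ} {x : Tot X.G} {h g : X.G.ι}
    (hg : (fun e => x (g, e)) ∈ cut k n K L)
    (hL : winCut K (X.lev h) ≤ L + ((K * (X.lev g - X.lev h) : ℕ) : ℤ)) :
    (fun e => X.G.mat h g • x (g, e)) ∈ cut k n K (winCut K (X.lev h)) := by
  refine ⟨fun e => Submodule.smul_mem _ _ (hg.1 e), fun e t ht => ?_⟩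
  exact smul_coeff_eq_zero (hX.mat_mem h g) (lo := L - 1) (fun t' ht' => hg.2 e t' (by omega))
    (by omega)

theorem part_stable {K : ℕ} (hX : X.IsGood K) (i : ℕ) : (totDiff X.G).Stable (X.partK K i) := by
  intro x hx h
  have hrow : (fun e => (totDiff X.G).d x (h, e)) =
      ∑ g, (fun e => X.G.mat h g • x (g, e)) +
        rsgn X.G h • delta k (Lam k n) (fun e => x (h, e)) := by
    funext e
    simp [totDiff_d, dTot_apply, FreeCx.dA_apply, Finset.sum_apply]
  constructor
  · rw [hrow]
    refine Submodule.add_mem _ (Submodule.sum_mem _ fun g _ => ?_)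
      (zsmul_mem (cut_delta (hx h).1) _)
    by_cases hm : X.G.mat h g = 0
    · have : (fun e => X.G.mat h g • x (g, e)) = 0 := funext fun e => by simp [hm]
      rw [this]
      exact Submodule.zero_mem _
    · refine X.dA_row_mem hX (hx g).1 ?_
      have hl := hX.mat_lev h g hm
      rw [Nat.cast_mul, Nat.cast_sub hl, winCut, winCut, mul_sub]
      omega
  · intro hi e
    have h1 : (fun e' => x (h, e')) = 0 := funext fun e' => (hx h).2 hi e'
    rw [totDiff_d, dTot_apply, h1, map_zero, Pi.zero_apply, smul_zero, add_zero,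
      FreeCx.dA_apply]
    refine Finset.sum_eq_zero fun g _ => ?_
    by_cases hm : X.G.mat h g = 0
    · simp [hm]
    · rw [(hx g).2 (hi.trans (hX.mat_lev h g hm)) e, smul_zero]

end Datum

/-- A cycle of the cut complex below the range of the slice homology is a boundary. -/
theorem cut_exact {K : ℕ} (H : SliceHyp k n K) {L : ℤ} {a : ℕ}
    (ha : ∀ t : ℤ, L ≤ t → ∀ p : ℕ, 1 ≤ p → p ≤ n →
      (∀ b : Fin n, b.val < p → t + (b.val : ℤ) * K ≤ -1) → p + 1 ≠ a)
    {f : Cov n → Lam k n} (hf : f ∈ cut k n K L) (hdeg : f ∈ (lamDiff k n).deg (-(a : ℤ)))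
    (hd : delta k (Lam k n) f = 0) :
    ∃ y, y ∈ cut k n K L ∧ y ∈ (lamDiff k n).deg (-(a : ℤ) + 1) ∧ delta k (Lam k n) y = f := by
  classical
  have key : ∀ t : ℤ, ∃ z : Cov n → Coef k n, L ≤ t →
      z ∈ slice k n K t ∧ z ∈ (sliceDiff k n).deg (-(a : ℤ) + 1) ∧
      delta k (Coef k n) z = fun e => (f e).coeff t := by
    intro t
    by_cases ht : L ≤ t
    swap
    · exact ⟨0, fun h => absurd h ht⟩
    have h1 : (fun e => (f e).coeff t) ∈ slice k n K t := fun e α h => hf.1 e t α h
    have h2 : (fun e => (f e).coeff t) ∈ (sliceDiff k n).deg (-(a : ℤ)) := fun e he => by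
      simp [hdeg e he]
    have h3 : delta k (Coef k n) (fun e => (f e).coeff t) = 0 := by
      funext e
      have := delta_map (R := k) (R' := k) (coeffHom t) f e
      rw [hd, Pi.zero_apply, map_zero] at this
      exact this.symm
    rcases H.vanish t (-(a : ℤ)) with hsub | ⟨p, hp1, hp2, hp3, -⟩
    · have hz : (fun e => (f e).coeff t) ∈
          (sliceDiff k n).cycles (slice k n K t) ⊥ (-(a : ℤ)) := by
        refine ⟨⟨h1, h2⟩, ?_⟩
        rw [SetLike.mem_coe, Submodule.mem_comap, Submodule.mem_bot]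
        exact h3
      have h0 := (Submodule.Quotient.mk_eq_zero
        (((sliceDiff k n).bdries (slice k n K t) ⊥ (-(a : ℤ))).comap (Submodule.subtype _))
        (x := (⟨_, hz⟩ : (sliceDiff k n).cycles (slice k n K t) ⊥ (-(a : ℤ))))).1
          (hsub.elim _ _)
      rw [Submodule.mem_comap, Submodule.subtype_apply, Diff.bdries, Submodule.mem_sup] at h0
      obtain ⟨u, ⟨z, ⟨z1, z2⟩, rfl⟩, b, ⟨hb, -⟩, hab⟩ := h0
      rw [SetLike.mem_coe, Submodule.mem_bot] at hb
      rw [hb, add_zero] at hab
      exact ⟨z, fun _ => ⟨z1, z2, hab⟩⟩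
    · by_cases hpn : p ≤ n
      · exact absurd (by omega) (ha t ht p hp1 hpn hp3)
      · have h0 : (fun e => (f e).coeff t) = 0 := sliceDeg_eq_bot (by omega) h2
        exact ⟨0, fun _ => ⟨Submodule.zero_mem _, Submodule.zero_mem _, by rw [map_zero, h0]⟩⟩
  choose z hz using key
  let zc : Cov n → ℤ → Coef k n := fun e t => if L ≤ t then z t e else 0
  have hb : ∀ e, BddBelow (Function.support (zc e)) := fun e => ⟨L, fun t ht => by
    by_contra hc
    exact ht (if_neg hc)⟩
  let y : Cov n → Lam k n := fun e => HahnSeries.ofSuppBddBelow (zc e) (hb e)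
  have hy : ∀ e t, (y e).coeff t = if L ≤ t then z t e else 0 := fun e t => by simp [y, zc]
  refine ⟨y, ⟨fun e t α h => ?_, fun e t ht => ?_⟩, fun e he => ?_, ?_⟩
  · rw [hy] at h
    split_ifs at h with hh
    · exact (hz t hh).1 e α h
    · simp at h
  · rw [hy, if_neg (by omega)]
  · refine HahnSeries.ext (funext fun t => ?_)
    rw [hy, HahnSeries.coeff_zero]
    split_ifs with hh
    · exact (hz t hh).2.1 e he
    · rfl
  · funext e
    refine HahnSeries.ext (funext fun t => ?_)
    change coeffHom t (delta k (Lam k n) y e) = (f e).coeff t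
    rw [delta_map (R := k) (R' := k) (coeffHom t) y e]
    change delta k (Coef k n) (fun e' => (y e').coeff t) e = _
    by_cases hh : L ≤ t
    · have e1 : (fun e' => (y e').coeff t) = z t := funext fun e' => by rw [hy, if_pos hh]
      rw [e1, (hz t hh).2.2]
    · have e1 : (fun e' => (y e').coeff t) = 0 := funext fun e' => by
        rw [hy, if_neg hh, Pi.zero_apply]
      rw [e1, map_zero, Pi.zero_apply, hf.2 e t (by omega)]

end Vale.Agent.P202.NC
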