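import Vale.Agent.P202.NC.Window.Layers
import Vale.Agent.P202.NC.Window.Bottom

/-!
# P202, general source ring: the window inequality of a datum

The Euler characteristic of the total complex is that of the part above the window plus that of
the quotient, which is large in the top degree `m` and small below.
-/

noncomputable section

namespace Vale.Agent.P202

theorem Diff.betti_quot_le {k M : Type*} [Field k] [AddCommGroup M] [Module k M] (D : Diff k M)
    {Y X W : Submodule k M} (hYX : Y ≤ X) (hXW : X ≤ W) (i j : ℤ) (hij : i = j + 1)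
    (h₁ : Module.Finite k (D.H W Y i)) (h₂ : Module.Finite k (D.H X Y j))
    (h₃ : Module.Finite k (D.H W X i)) :
    D.betti W X i ≤ D.betti W Y i + D.betti X Y j := by
  rw [Diff.betti, Diff.finrank_mid _ _ (D.exact_right (W := W) hYX hXW i j hij)]
  exact add_le_add (LinearMap.finrank_range_le _) (Submodule.finrank_le _)

namespace NC

open Segre Window

variable {k : Type*} [Field k] {n : ℕ}

namespace Datum

variable (X : Datum k (n + 1))

theorem lengthLE : X.G.LengthLE (n + 1 + X.m) := fun g => by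
  have := X.pos_le g
  have := X.lev_le g
  omega

/-- The signed sum of the window values, by level. -/
def winSum (K : ℕ) : ℤ :=
  ∑ i ∈ Finset.Icc 1 (n + 1), (-1) ^ i * (X.frank i : ℤ) * sFun n K (i - 1)

theorem sum_filter_lev {K : ℕ} (hX : X.IsGood K) :
    ∑ g ∈ Finset.univ.filter (fun g => 1 ≤ X.lev g),
      (-1 : ℤ) ^ X.G.pos g * sFun n K (X.lev g - 1) = (-1) ^ X.m * X.winSum K := by
  classical
  rw [winSum, Finset.mul_sum, ← Finset.sum_fiberwise_of_maps_to (g := X.lev)
    (t := Finset.Icc 1 (n + 1)) (fun g hg => by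
      simp only [Finset.mem_filter, Finset.mem_univ, true_and] at hg
      exact Finset.mem_Icc.2 ⟨hg, X.lev_le g⟩)]
  refine Finset.sum_congr rfl fun i hi => ?_
  have hi1 : 1 ≤ i := (Finset.mem_Icc.1 hi).1
  rw [Finset.filter_filter, show (Finset.univ.filter fun g => 1 ≤ X.lev g ∧ X.lev g = i) =
    Finset.univ.filter (fun g => X.lev g = i) from Finset.filter_congr fun g _ =>
      ⟨fun h => h.2, fun h => ⟨h ▸ hi1, h⟩⟩]
  calc ∑ g ∈ Finset.univ.filter (fun g => X.lev g = i), (-1 : ℤ) ^ X.G.pos g * sFun n K (X.lev g - 1)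
      = (∑ g ∈ Finset.univ.filter (fun g => X.lev g = i), (-1 : ℤ) ^ X.G.pos g) *
          sFun n K (i - 1) := by
        rw [Finset.sum_mul]
        exact Finset.sum_congr rfl fun g hg => by rw [(Finset.mem_filter.1 hg).2]
    _ = _ := by
        rw [hX.euler i, pow_add]
        ring

/-- The window inequality. -/
theorem window_le (hn : 1 ≤ n) {K : ℕ} (hK : 1 ≤ K) (hX : X.IsGood K) {C₀ : ℕ}
    (hb : X.BandAt K C₀) {o : ℕ} (ho : (segreHom k n X.c).order = (o : ℤ))
    {U : Type*} [AddCommGroup U] [Module (Pw k n) U] [Module k U] [IsScalarTower k (Pw k n) U]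
    {φ : U →ₗ[Pw k n] Lam k n} (hφ : AugHyp (comp k n K) φ) (hfin : X.G.FiniteHom U k) {P : ℕ}
    (hP : ∀ j : ℤ, j < X.m → (X.G.diff U k).betti ⊤ ⊥ j ≤ P) :
    (X.frank 0 : ℤ) * partSum n K (K - o) + X.winSum K ≤ (-1) ^ X.m * X.G.chi U k +
      ((n + 1 + X.m : ℕ) : ℤ) * (P + Fintype.card X.G.ι * (C₀ * K ^ n) : ℕ) := by
  classical
  set σ := X.grading K
  set D := totDiff X.G with hD
  set T := top X.G (comp k n K)
  set F := σ.filt (comp k n K) σ.levWin with hF
  have hup := X.matUp hX
  have H := Window.sliceHyp k n K hn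
  have ha := Window.acycHyp (K := K) hX.finite X.lengthLE
  have eT := fun j => augEquiv X.G Window.compHyp ha hφ j
  have hlow : ∀ (Y : Submodule k (Tot X.G)) (Z : Submodule k (Tot X.G)) (j : ℤ),
      j < -((n : ℤ) + 1) → Subsingleton (D.H Y Z j) := by
    intro Y Z j hj
    refine Diff.subsingleton_H _ fun x hx => ?_
    have : x = 0 := funext fun p => hx.1.2 p.1 p.2 (by have := cdeg_le p.2; omega)
    rw [this]
    exact Submodule.zero_mem _
  have hTfin : D.Fin' T ⊥ := by
    refine ⟨fun j => ?_, n + 1 + X.m, fun j hj => ?_⟩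
    · have := hfin j
      exact Module.Finite.equiv (eT j).symm
    · refine Diff.subsingleton_H _ fun x hx => ?_
      rcases hj with hj | hj
      · have : x = 0 := funext fun p => hx.1.2 p.1 p.2 (by have := cdeg_le p.2; omega)
        rw [this]
        exact Submodule.zero_mem _
      · have : x = 0 := funext fun p => hx.1.2 p.1 p.2 (by have := X.lengthLE p.1; omega)
        rw [this]
        exact Submodule.zero_mem _
  have hTb : ∀ j, D.betti T ⊥ j = (X.G.diff U k).betti ⊤ ⊥ j := fun j => (eT j).finrank_eq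
  have hTchi : D.chi T ⊥ = X.G.chi U k := by
    rw [Diff.chi, FreeCx.chi, Diff.chi]
    exact finsum_congr fun j => by rw [hTb]
  obtain ⟨N, hN⟩ : ∃ N : ℕ, σ.levWin + N = σ.levTop := ⟨(σ.levTop - σ.levWin).toNat, by
    have h1 : σ.levWin ≤ σ.levTop := by
      simp only [Grading.levWin, Grading.levTop, σ, grading]
      have h0 := mul_le_mul_of_nonneg_right (show (K : ℤ) ≤ (((n + 2) * K : ℕ) : ℤ) by
        exact_mod_cast Nat.le_mul_of_pos_left K (show 0 < n + 2 by omega))
        (show (0 : ℤ) ≤ ((n + 1 + X.m + 1 : ℕ) : ℤ) by positivity)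
      omega
    omega⟩
  obtain ⟨hFfin, hFchi⟩ := Grading.filt_chi (σ := σ) H hn (show σ.K = K from rfl) Window.compHyp
    hup N σ.levWin hN
  rw [Grading.sum_rowWeight (σ := σ) hK] at hFchi
  have hFchi' : D.chi F ⊥ = (-1) ^ X.m * X.winSum K := hFchi.trans (X.sum_filter_lev hX)
  have hFle : F ≤ T := Grading.filt_le_top _
  have hQ : D.Fin' T F := D.fin'_right bot_le hFle hTfin hFfin
  have hchi : D.chi T F = X.G.chi U k - (-1) ^ X.m * X.winSum K := by
    have := D.chi_add bot_le hFle hFfin hQ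
    rw [hTchi, hFchi'] at this
    linarith
  set P' := P + Fintype.card X.G.ι * (C₀ * K ^ n) with hP'
  have hsmall : ∀ j : ℤ, j < X.m → D.betti T F j ≤ P' := by
    intro j hj
    refine (D.betti_quot_le bot_le hFle j (j - 1) (by ring) (hTfin.finite j)
      (hFfin.finite (j - 1)) (hQ.finite j)).trans (Nat.add_le_add ?_ ?_)
    · rw [hTb]
      exact hP j hj
    · have := (X.window_betti hn hK hX hb (j := j - 1) (by omega)).2
      rwa [X.part_top] at this
  have hbot : (X.frank 0 : ℤ) * partSum n K (K - o) ≤ (D.betti T F (X.m : ℤ) : ℤ) := by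
    have := hQ.finite (X.m : ℤ)
    exact X.le_betti_bottom hn hX ho
  have hsum : D.chi T F = ∑ j ∈ Finset.Icc (-((n : ℤ) + 1)) (X.m : ℤ),
      (j.negOnePow : ℤ) * (D.betti T F j : ℤ) := by
    refine finsum_eq_sum_of_support_subset _ fun j hj => ?_
    rw [Finset.coe_Icc, Set.mem_Icc]
    by_contra hc
    rcases not_and_or.1 hc with h | h
    · have := hlow T F j (not_le.1 h)
      exact hj (by simp [Diff.betti, Module.finrank_zero_of_subsingleton])
    · have : Subsingleton (D.H T F j) :=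
        Grading.H_top_pos (σ := σ) H (show σ.K = K from rfl) hK Window.compHyp hup
          (m := X.m) X.pos_le (not_le.1 h)
      exact hj (by simp [Diff.betti, Module.finrank_zero_of_subsingleton])
  rw [← Finset.Ico_insert_right (show -((n : ℤ) + 1) ≤ (X.m : ℤ) by omega), Finset.sum_insert (by simp),
    Int.coe_negOnePow_natCast] at hsum
  have hrest : |∑ j ∈ Finset.Ico (-((n : ℤ) + 1)) (X.m : ℤ),
      (j.negOnePow : ℤ) * (D.betti T F j : ℤ)| ≤ ((n + 1 + X.m : ℕ) : ℤ) * (P' : ℤ) := by
    refine (Finset.abs_sum_le_sum_abs _ _).trans ?_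
    refine (Finset.sum_le_card_nsmul _ _ (P' : ℤ) fun j hj => ?_).trans (le_of_eq ?_)
    · rw [abs_mul, Int.abs_negOnePow, one_mul, abs_of_nonneg (Int.natCast_nonneg _)]
      exact_mod_cast hsmall j (Finset.mem_Ico.1 hj).2
    · rw [Int.card_Ico, nsmul_eq_mul]
      congr 1
      omega
  have hsq : ((-1 : ℤ) ^ X.m) * (-1) ^ X.m = 1 := by
    rw [← pow_add, ← two_mul, pow_mul]
    norm_num
  have key : (-1 : ℤ) ^ X.m * D.chi T F = (D.betti T F (X.m : ℤ) : ℤ) +
      (-1) ^ X.m * ∑ j ∈ Finset.Ico (-((n : ℤ) + 1)) (X.m : ℤ),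
        (j.negOnePow : ℤ) * (D.betti T F j : ℤ) := by
    rw [hsum, mul_add, ← mul_assoc, hsq, one_mul]
  rw [hchi, mul_sub, ← mul_assoc, hsq, one_mul] at key
  have habs : |(-1 : ℤ) ^ X.m * ∑ j ∈ Finset.Ico (-((n : ℤ) + 1)) (X.m : ℤ),
      (j.negOnePow : ℤ) * (D.betti T F j : ℤ)| ≤ ((n + 1 + X.m : ℕ) : ℤ) * (P' : ℤ) := by
    rwa [abs_mul, abs_pow, abs_neg, abs_one, one_pow, one_mul]
  have := (abs_le.1 habs).1
  linarith

end Datum

end NC

end Vale.Agent.P202
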