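import Vale.Agent.P202.NC.Window.Neg
import Vale.Agent.P202.NC.Window.HighDefs
import Vale.Agent.P202.NC.Band.Lead

/-!
# P202, general source ring: below the top degree a power of `c` kills the complex on the Segre module
-/

noncomputable section

namespace Vale.Agent.P202.NC

open Segre Window

variable {k : Type*} [Field k] {n : ℕ}

theorem smul_left_cancel₀ {c : Pw k n} (hc : c ≠ 0) {v : Lam k n} (h : c • v = 0) : v = 0 := by
  have : NoZeroDivisors (Coef k n) := inferInstance
  have h1 : segreHom k n c * v = 0 := h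
  exact (mul_eq_zero.1 h1).resolve_left (Band.segreHom_ne_zero hc)

namespace Datum

variable (X : Datum k (n + 1))

/-- A cycle below the top degree supported in levels less than `i` is killed by `c ^ i`. -/
theorem kills_below {K : ℕ} (hX : X.IsGood K) {W : Submodule (Pw k n) (Lam k n)} {j : ℤ}
    (hj : j < X.m) : ∀ (i : ℕ) (u : X.G.ι → Lam k n), u ∈ X.G.fam k W →
      (∀ g, (X.G.pos g : ℤ) ≠ j → u g = 0) → (∀ g, i ≤ X.lev g → u g = 0) →
      X.G.dA (Lam k n) u = 0 →
      ∃ v, v ∈ X.G.fam k W ∧ (∀ g, (X.G.pos g : ℤ) ≠ j + 1 → v g = 0) ∧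
        X.G.dA (Lam k n) v = X.c ^ i • u := by
  classical
  intro i
  induction i with
  | zero =>
    intro u _ _ hlev _
    have : u = 0 := funext fun g => hlev g (Nat.zero_le _)
    subst this
    exact ⟨0, Submodule.zero_mem _, fun _ _ => rfl, by rw [map_zero, smul_zero]⟩
  | succ i ih =>
    intro u hu hdeg hlev hd
    let h : X.G.ι → Lam k n := fun g => ∑ g', X.hom g g' • u g'
    have h1 : h ∈ X.G.fam k W := fun g =>
      Submodule.sum_mem _ fun g' _ => Submodule.smul_mem _ _ (hu g')
    have h2 : ∀ g, (X.G.pos g : ℤ) ≠ j + 1 → h g = 0 := fun g hg => by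
      refine Finset.sum_eq_zero fun g' _ => ?_
      by_cases hh : X.hom g g' = 0
      · rw [hh, zero_smul]
      · rw [hdeg g' (by have := (X.hom_supp g g' hh).2; omega), smul_zero]
    have hzero : ∀ g, i ≤ X.lev g → (X.c • u - X.G.dA (Lam k n) h) g = 0 := by
      intro g hg
      have hBu : ∀ g₁, i ≤ X.lev g₁ → ∑ g', X.blockMat g₁ g' • u g' = 0 := by
        intro g₁ hg₁
        refine Eq.trans ?_ (congrFun hd g₁)
        rw [FreeCx.dA_apply]
        refine Finset.sum_congr rfl fun g' _ => ?_
        by_cases hl : X.lev g₁ = X.lev g'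
        · simp [blockMat, hl]
        · by_cases hm : X.G.mat g₁ g' = 0
          · simp [blockMat, hl, hm]
          · have := hX.mat_lev g₁ g' hm
            rw [hlev g' (by omega), smul_zero, smul_zero]
      have hπ : ∑ g', (X.ψ * X.π) g g' • u g' = 0 := by
        refine Finset.sum_eq_zero fun g' _ => ?_
        rw [Matrix.mul_apply, Finset.sum_smul, Finset.sum_eq_zero]
        intro a _
        by_cases hu0 : u g' = 0
        · rw [hu0, smul_zero]
        · rw [mul_smul]
          by_cases hp : X.π a g' = 0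
          · rw [hp, zero_smul, smul_zero]
          · have hpos : (X.G.pos g' : ℤ) = j := not_not.1 fun hh => hu0 (hdeg g' hh)
            have := X.π_supp a g' hp
            omega
      have hhom := fun g' => congrFun (congrFun hX.homotopy g) g'
      simp only [Matrix.sub_apply, Matrix.smul_apply, Matrix.add_apply, smul_eq_mul,
        Matrix.one_apply, mul_ite, mul_one, mul_zero] at hhom
      have hcu : X.c • u g = ∑ g', (X.blockMat * X.hom) g g' • u g' +
          ∑ g', (X.hom * X.blockMat) g g' • u g' := by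
        rw [← Finset.sum_add_distrib, ← sub_zero (X.c • u g), ← hπ]
        simp only [← add_smul, ← hhom, sub_smul, Finset.sum_sub_distrib]
        congr 1
        rw [Finset.sum_eq_single g]
        · rw [if_pos rfl]
        · intro b _ hb
          rw [if_neg (fun hh => hb hh.symm), zero_smul]
        · exact fun hh => absurd (Finset.mem_univ g) hh
      have hsecond : ∑ g', (X.hom * X.blockMat) g g' • u g' = 0 := by
        simp only [Matrix.mul_apply, Finset.sum_smul, mul_smul]
        rw [Finset.sum_comm]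
        refine Finset.sum_eq_zero fun g₁ _ => ?_
        rw [← Finset.smul_sum]
        by_cases hh : X.hom g g₁ = 0
        · rw [hh, zero_smul]
        · rw [hBu g₁ ((X.hom_supp g g₁ hh).1 ▸ hg), smul_zero]
      rw [Pi.sub_apply, Pi.smul_apply, hcu, hsecond, add_zero, sub_eq_zero, FreeCx.dA_apply]
      simp only [h, Matrix.mul_apply, Finset.sum_smul, Finset.smul_sum, smul_smul]
      rw [Finset.sum_comm]
      refine Finset.sum_congr rfl fun g₁ _ => Finset.sum_congr rfl fun g' _ => ?_
      by_cases hl : X.lev g = X.lev g₁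
      · simp [blockMat, hl]
      · by_cases hm : X.G.mat g g₁ = 0
        · simp [blockMat, hl, hm]
        · by_cases hh : X.hom g₁ g' = 0
          · simp [hh]
          · have := hX.mat_lev g g₁ hm
            have := (X.hom_supp g₁ g' hh).1
            rw [hlev g' (by omega), smul_zero, smul_zero]
    obtain ⟨v, v1, v2, v3⟩ := ih (X.c • u - X.G.dA (Lam k n) h)
      (fun g => Submodule.sub_mem _ (Submodule.smul_mem _ _ (hu g))
        (Submodule.sum_mem _ fun g' _ => Submodule.smul_mem _ _ (h1 g')))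
      (fun g hg => by
        rw [Pi.sub_apply, Pi.smul_apply, hdeg g hg, smul_zero, FreeCx.dA_apply,
          Finset.sum_eq_zero, sub_zero]
        intro g' _
        by_cases hm : X.G.mat g g' = 0
        · rw [hm, zero_smul]
        · rw [h2 g' (by have := X.G.mat_pos g g' hm; omega), smul_zero])
      hzero (by rw [map_sub, map_smul, hd, smul_zero, FreeCx.dA_dA, sub_zero])
    refine ⟨v + X.c ^ i • h, fun g => Submodule.add_mem _ (v1 g) (Submodule.smul_mem _ _ (h1 g)),
      fun g hg => by rw [Pi.add_apply, Pi.smul_apply, v2 g hg, h2 g hg, smul_zero, add_zero], ?_⟩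
    rw [map_add, v3, map_smul, smul_sub, sub_add_cancel, smul_smul, pow_succ]

section Quot

variable {U : Type*} [AddCommGroup U] [Module (Pw k n) U] [Module k U]
  [IsScalarTower k (Pw k n) U] {φ : U →ₗ[Pw k n] Lam k n} {K : ℕ}

variable (φ) in
/-- Reading a cycle on the Segre module in the Laurent model modulo `c'`. -/
def cycQuot (hφ : AugHyp (comp k n K) φ) (c' : Pw k n) (j : ℤ) :
    (X.G.diff U k).cycles ⊤ ⊥ j →ₗ[k]
      (X.G.diff (Lam k n) k).cycles (X.G.fam k (comp k n K none)) (X.G.fam k (cU K c')) j :=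
  LinearMap.codRestrict _ ((Window.toTot X.G φ).comp (Submodule.subtype _)) fun u => by
    obtain ⟨u, ⟨-, hu2⟩, hu3⟩ := u
    rw [SetLike.mem_coe, Submodule.mem_comap, Submodule.mem_bot] at hu3
    refine (Diff.mem_cycles _).2 ⟨fun g => ?_, fun g hg => ?_, fun g => ?_⟩
    · rw [← hφ.range_eq]
      exact LinearMap.mem_range_self φ (u g)
    · show φ (u g) = 0
      rw [hu2 g hg, map_zero]
    · show X.G.dA (Lam k n) (fun g' => φ (u g')) g ∈ cU K c'
      rw [← map_dA, show X.G.dA U u = 0 from hu3, Pi.zero_apply, map_zero]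
      exact Submodule.zero_mem _

/-- The homology below the top degree is at most that modulo `c ^ (n + 2)`. -/
theorem betti_le_quot (hX : X.IsGood K) (hφ : AugHyp (comp k n K) φ) {j : ℤ} (hj : j < X.m)
    [Module.Finite k ((X.G.diff (Lam k n) k).H (X.G.fam k (comp k n K none))
      (X.G.fam k (cU K (X.c ^ (n + 2)))) j)] :
    (X.G.diff U k).betti ⊤ ⊥ j ≤ (X.G.diff (Lam k n) k).betti (X.G.fam k (comp k n K none))
      (X.G.fam k (cU K (X.c ^ (n + 2)))) j := by
  classical
  set c' := X.c ^ (n + 2) with hc'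
  have hc : c' ≠ 0 := pow_ne_zero _ X.c_ne
  have key : ((X.G.diff U k).bdries ⊤ ⊥ j).comap ((X.G.diff U k).cycles ⊤ ⊥ j).subtype ≤
      (((X.G.diff (Lam k n) k).bdries (X.G.fam k (comp k n K none)) (X.G.fam k (cU K c')) j).comap
        (Submodule.subtype _)).comap (X.cycQuot φ hφ c' j) := by
    rintro u hu
    obtain ⟨w, ⟨-, hw⟩, y, ⟨hy, -⟩, e⟩ := (Diff.mem_bdries _).1 (Submodule.mem_comap.1 hu)
    rw [Submodule.mem_bot] at hy
    refine (Diff.mem_bdries _).2 ⟨fun g => φ (w g), ⟨fun g => ?_, fun g hg => ?_⟩,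
      0, ⟨Submodule.zero_mem _, Submodule.zero_mem _⟩, ?_⟩
    · rw [← hφ.range_eq]
      exact LinearMap.mem_range_self φ (w g)
    · show φ (w g) = 0
      rw [hw g hg, map_zero]
    · rw [add_zero]
      funext g
      show X.G.dA (Lam k n) (fun g' => φ (w g')) g = φ (u.1 g)
      rw [hy, add_zero] at e
      rw [← map_dA]
      exact congrArg φ (congrFun e g)
  refine LinearMap.finrank_le_finrank_of_injective
    (f := Submodule.mapQ _ _ (X.cycQuot φ hφ c' j) key) ?_
  rw [← LinearMap.ker_eq_bot, eq_bot_iff]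
  intro ξ hξ
  obtain ⟨⟨u, hu⟩, rfl⟩ := Submodule.Quotient.mk_surjective _ ξ
  rw [LinearMap.mem_ker, Submodule.mapQ_apply] at hξ
  rw [Submodule.mem_bot, Diff.mk_eq_zero_iff]
  have hu2 := hu.1.2
  have hu3 := hu.2
  rw [SetLike.mem_coe, Submodule.mem_comap, Submodule.mem_bot] at hu3
  obtain ⟨w, ⟨hw1, hw2⟩, y, ⟨hy1, hy2⟩, e⟩ :=
    (Diff.mem_bdries _).1 ((Diff.mk_eq_zero_iff _ _).1 hξ)
  choose z hz hzy using hy1
  have hzd : ∀ g, (X.G.pos g : ℤ) ≠ j → z g = 0 := fun g hg => smul_left_cancel₀ hc (by
    have := hzy g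
    rw [LinearMap.lsmul_apply] at this
    rw [this]
    exact hy2 g hg)
  have e' : X.G.dA (Lam k n) w + y = fun g => φ (u g) := e
  have hdz : X.G.dA (Lam k n) z = 0 := by
    have hy : y = c' • z := funext fun g => (hzy g).symm
    have h0 : X.G.dA (Lam k n) (fun g => φ (u g)) = 0 := funext fun g => by
      rw [← map_dA, show X.G.dA U u = 0 from hu3, Pi.zero_apply, map_zero, Pi.zero_apply]
    rw [← e', map_add, FreeCx.dA_dA, zero_add, hy, map_smul] at h0
    exact funext fun g => smul_left_cancel₀ hc (congrFun h0 g)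
  obtain ⟨v, v1, v2, v3⟩ := X.kills_below hX (W := comp k n K none) hj (n + 2) z hz hzd
    (fun g hg => absurd hg (by have := X.lev_le g; omega)) hdz
  have hmem : ∀ g, ∃ r, φ r = w g + v g := fun g => by
    have := Submodule.add_mem _ (hw1 g) (v1 g)
    rw [← hφ.range_eq] at this
    exact this
  choose r hr using hmem
  refine (Diff.mem_bdries _).2 ⟨r, ⟨trivial, fun g hg => hφ.inj ?_⟩, 0,
    ⟨Submodule.zero_mem _, Submodule.zero_mem _⟩, ?_⟩
  · rw [hr, hw2 g hg, v2 g hg, add_zero, map_zero]
  · rw [add_zero]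
    funext g
    refine hφ.inj ?_
    show φ (X.G.dA U r g) = φ (u g)
    rw [map_dA, funext hr, show (fun g' => w g' + v g') = w + v from rfl, map_add, v3,
      ← congrFun e' g, Pi.add_apply, Pi.add_apply, Pi.smul_apply]
    congr 1
    exact hzy g

end Quot

end Datum

end Vale.Agent.P202.NC
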